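import Mathlib

/-! A criterion for non-injectivity on third group homology. -/

set_option autoImplicit false

namespace Crest.Agent.R171

open groupHomology CategoryTheory Finsupp

section

variable {G : Type} [Group G]

/-- The differential with trivial integer coefficients. -/
noncomputable abbrev dd (G : Type) [Group G] (n : ℕ) :
    ((Fin (n + 1) → G) →₀ ℤ) →ₗ[ℤ] ((Fin n → G) →₀ ℤ) :=
  (inhomogeneousChains.d (Rep.trivial ℤ G ℤ) n).hom

lemma dd_three (a b c : G) : dd G 2 (single ![a, b, c] 1) =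
    single ![b, c] 1 - single ![a * b, c] 1 + single ![a, b * c] 1 - single ![a, b] 1 := by
  have := inhomogeneousChains.d_single (A := Rep.trivial ℤ G ℤ) 2 ![a, b, c] (1 : ℤ)
  refine this.trans ?_
  have e0 : (fun i : Fin 2 => ![a, b, c] i.succ) = ![b, c] := by
    ext i; fin_cases i <;> rfl
  have e1 : Fin.contractNth (0 : Fin 3) (· * ·) ![a, b, c] = ![a * b, c] := by
    ext i; fin_cases i <;> rfl
  have e2 : Fin.contractNth (1 : Fin 3) (· * ·) ![a, b, c] = ![a, b * c] := by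
    ext i; fin_cases i <;> rfl
  have e3 : Fin.contractNth (2 : Fin 3) (· * ·) ![a, b, c] = ![a, b] := by
    ext i; fin_cases i <;> rfl
  rw [Fin.sum_univ_three, e0, e1, e2, e3]
  simp
  abel

lemma dd_four (a b c d : G) : dd G 3 (single ![a, b, c, d] 1) =
    single ![b, c, d] 1 - single ![a * b, c, d] 1 + single ![a, b * c, d] 1
      - single ![a, b, c * d] 1 + single ![a, b, c] 1 := by
  have := inhomogeneousChains.d_single (A := Rep.trivial ℤ G ℤ) 3 ![a, b, c, d] (1 : ℤ)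
  refine this.trans ?_
  have e0 : (fun i : Fin 3 => ![a, b, c, d] i.succ) = ![b, c, d] := by
    ext i; fin_cases i <;> rfl
  have e1 : Fin.contractNth (0 : Fin 4) (· * ·) ![a, b, c, d] = ![a * b, c, d] := by
    ext i; fin_cases i <;> rfl
  have e2 : Fin.contractNth (1 : Fin 4) (· * ·) ![a, b, c, d] = ![a, b * c, d] := by
    ext i; fin_cases i <;> rfl
  have e3 : Fin.contractNth (2 : Fin 4) (· * ·) ![a, b, c, d] = ![a, b, c * d] := by
    ext i; fin_cases i <;> rfl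
  have e4 : Fin.contractNth (3 : Fin 4) (· * ·) ![a, b, c, d] = ![a, b, c] := by
    ext i; fin_cases i <;> rfl
  rw [Fin.sum_univ_four, e0, e1, e2, e3, e4]
  simp
  abel

/-- The standard cycle of an element of order dividing five. -/
noncomputable def zz (h : G) : (Fin 3 → G) →₀ ℤ :=
  ∑ i ∈ Finset.range 5, single ![h, h ^ i, h] 1

lemma dd_zz {h : G} (hh : h ^ 5 = 1) : dd G 2 (zz h) = 0 := by
  simp only [zz, map_sum, dd_three, ← pow_succ, ← pow_succ']
  simp only [Finset.sum_range_succ, Finset.sum_range_zero, Nat.reduceAdd, hh, pow_zero]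
  abel

/-- The prism for conjugation. -/
noncomputable def prism (c : G) (a b d : G) : (Fin 4 → G) →₀ ℤ :=
  single ![c⁻¹, c * a * c⁻¹, c * b * c⁻¹, c * d * c⁻¹] 1
    - single ![a, c⁻¹, c * b * c⁻¹, c * d * c⁻¹] 1
    + single ![a, b, c⁻¹, c * d * c⁻¹] 1 - single ![a, b, d, c⁻¹] 1

/-- The prism for conjugation, one degree lower. -/
noncomputable def prism₂ (c : G) (a b : G) : (Fin 3 → G) →₀ ℤ :=
  single ![c⁻¹, c * a * c⁻¹, c * b * c⁻¹] 1 - single ![a, c⁻¹, c * b * c⁻¹] 1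
    + single ![a, b, c⁻¹] 1

lemma dd_prism (c a b d : G) : dd G 3 (prism c a b d) =
    single ![c * a * c⁻¹, c * b * c⁻¹, c * d * c⁻¹] 1 - single ![a, b, d] 1
      - (prism₂ c b d - prism₂ c (a * b) d + prism₂ c a (b * d) - prism₂ c a b) := by
  simp only [prism, prism₂, map_sub, map_add, dd_four, mul_assoc, inv_mul_cancel_left]
  abel

lemma zz_conj {h : G} (hh : h ^ 5 = 1) (c : G) :
    ∃ w, dd G 3 w = zz (c * h * c⁻¹) - zz h := by
  refine ⟨∑ i ∈ Finset.range 5, prism c h (h ^ i) h, ?_⟩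
  simp only [zz, map_sum, dd_prism, conj_pow, ← pow_succ, ← pow_succ']
  simp only [Finset.sum_range_succ, Finset.sum_range_zero, Nat.reduceAdd, hh, pow_zero]
  abel

end

theorem not_injective_H3 {G H : Type} [Group G] [Group H] (f : G →* H)
    (φ : Rep.trivial ℤ G ℤ ⟶ Rep.res f (Rep.trivial ℤ H ℤ)) (hφ : ∀ a, φ.hom a = a)
    (h0 h1 : G) (p0 : h0 ^ 5 = 1) (p1 : h1 ^ 5 = 1) (c : H) (hc : c * f h0 * c⁻¹ = f h1)
    {M : Type} [AddCommGroup M] (C : G → G → G → M)
    (hC : ∀ a b c d, C b c d - C (a * b) c d + C a (b * c) d - C a b (c * d) + C a b c = 0)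
    (hne : ∑ i ∈ Finset.range 5, C h0 (h0 ^ i) h0 ≠ ∑ i ∈ Finset.range 5, C h1 (h1 ^ i) h1) :
    ¬ Function.Injective (groupHomology.map f φ 3).hom := by
  intro hinj
  apply hne
  have hd : ∀ {h : G}, h ^ 5 = 1 →
      (inhomogeneousChains (Rep.trivial ℤ G ℤ)).d 3 2 (zz h) = 0 := by
    intro h hh
    rw [inhomogeneousChains.d_def]
    exact dd_zz hh
  let z : ∀ {h : G}, h ^ 5 = 1 → cycles (Rep.trivial ℤ G ℤ) 3 := fun {h} hh =>
    cyclesMk 3 2 (by simp) (zz h) (hd hh)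
  have hz : ∀ {h : G} (hh : h ^ 5 = 1), iCycles (Rep.trivial ℤ G ℤ) 3 (z hh) = zz h :=
    fun hh => iCycles_mk _ _ _
  -- the functional
  let L : ((Fin 3 → G) →₀ ℤ) →ₗ[ℤ] M :=
    Finsupp.linearCombination ℤ fun g => C (g 0) (g 1) (g 2)
  have hL : ∀ a b c : G, L (single ![a, b, c] 1) = C a b c := by
    intro a b c
    simp [L]
  have hLd : (inhomogeneousChains (Rep.trivial ℤ G ℤ)).d 4 3 ≫
      (ModuleCat.ofHom L : (inhomogeneousChains (Rep.trivial ℤ G ℤ)).X 3 ⟶ ModuleCat.of ℤ M)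
      = 0 := by
    rw [inhomogeneousChains.d_def]
    refine ModuleCat.hom_ext (lhom_ext' fun g => LinearMap.ext_ring ?_)
    have e : g = ![g 0, g 1, g 2, g 3] := by
      ext i; fin_cases i <;> rfl
    change L (dd G 3 (single g 1)) = 0
    rw [e, dd_four]
    simp only [map_add, map_sub, hL]
    exact hC _ _ _ _
  let Λ : groupHomology (Rep.trivial ℤ G ℤ) 3 ⟶ ModuleCat.of ℤ M :=
    (inhomogeneousChains (Rep.trivial ℤ G ℤ)).homologyι 3 ≫
      (inhomogeneousChains (Rep.trivial ℤ G ℤ)).descOpcycles (ModuleCat.ofHom L) 4 (by simp) hLd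
  have hΛ : π (Rep.trivial ℤ G ℤ) 3 ≫ Λ = iCycles (Rep.trivial ℤ G ℤ) 3 ≫ ModuleCat.ofHom L := by
    refine (HomologicalComplex.homology_π_ι_assoc (K := inhomogeneousChains (Rep.trivial ℤ G ℤ))
      (i := 3) _).trans ?_
    rw [HomologicalComplex.p_descOpcycles]
  have hΛ' : ∀ {h : G} (hh : h ^ 5 = 1), Λ (π (Rep.trivial ℤ G ℤ) 3 (z hh))
      = ∑ i ∈ Finset.range 5, C h (h ^ i) h := by
    intro h hh
    have : Λ (π (Rep.trivial ℤ G ℤ) 3 (z hh)) = L (iCycles (Rep.trivial ℤ G ℤ) 3 (z hh)) :=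
      congrArg (fun ψ => ψ (z hh)) hΛ
    rw [this, hz hh]
    simp only [zz, map_sum, hL]
  rw [← hΛ' p0, ← hΛ' p1]
  congr 1
  apply hinj
  change (π (Rep.trivial ℤ G ℤ) 3 ≫ groupHomology.map f φ 3) (z p0)
    = (π (Rep.trivial ℤ G ℤ) 3 ≫ groupHomology.map f φ 3) (z p1)
  rw [π_map]
  obtain ⟨w, hw⟩ := zz_conj (h := f h0) (by rw [← map_pow, p0, map_one]) c
  rw [hc] at hw
  have hmap : ∀ {h : G} (hh : h ^ 5 = 1),
      iCycles (Rep.trivial ℤ H ℤ) 3 (cyclesMap f φ 3 (z hh)) = zz (f h) := by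
    intro h hh
    have := congrArg (fun ψ => ψ (z hh)) (HomologicalComplex.cyclesMap_i (chainsMap f φ) 3)
    refine this.trans ?_
    have e := hz hh
    change (chainsMap f φ).f 3 (iCycles (Rep.trivial ℤ G ℤ) 3 (z hh)) = _
    rw [e, zz, zz]
    erw [map_sum]
    refine Finset.sum_congr rfl fun i _ => ?_
    refine (chainsMap_f_single f φ 3 _ _).trans ?_
    rw [hφ]
    congr 1
    ext j; fin_cases j <;> simp
  have hmono : Function.Injective (iCycles (Rep.trivial ℤ H ℤ) 3) :=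
    (ModuleCat.mono_iff_injective _).mp inferInstance
  have hdiff : cyclesMap f φ 3 (z p1) - cyclesMap f φ 3 (z p0)
      = toCycles (Rep.trivial ℤ H ℤ) 4 3 w := by
    apply hmono
    rw [map_sub, hmap p1, hmap p0, ← hw]
    have e := (inhomogeneousChains (Rep.trivial ℤ H ℤ)).toCycles_i 4 3
    rw [inhomogeneousChains.d_def] at e
    exact (congrArg (fun ψ => ψ w) e).symm
  have hzero : π (Rep.trivial ℤ H ℤ) 3 (toCycles (Rep.trivial ℤ H ℤ) 4 3 w) = 0 := by
    exact congrArg (fun ψ => ψ w)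
      ((inhomogeneousChains (Rep.trivial ℤ H ℤ)).toCycles_comp_homologyπ 4 3)
  rw [← hdiff, map_sub, sub_eq_zero] at hzero
  exact hzero.symm

end Crest.Agent.R171
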