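import Crest.Agent.R171.Blk
import Crest.Agent.R171.Hom

/-! The abstract criterion. -/

set_option autoImplicit false

namespace Crest.Agent.R171

open Crest.AlgebraR.Steinberg

section

variable {S : Type*} [CommRing S] {n m : Type*} [Fintype n] [DecidableEq n] [Fintype m]
  [DecidableEq m]

lemma Theta_fromBlocks (a0 a1 a2 a3 : Matrix n n S) (b0 b1 b2 b3 : Matrix m m S) :
    Theta (Matrix.fromBlocks a0 0 0 b0) (Matrix.fromBlocks a1 0 0 b1)
      (Matrix.fromBlocks a2 0 0 b2) (Matrix.fromBlocks a3 0 0 b3)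
      = Theta a0 a1 a2 a3 + Theta b0 b1 b2 b3 := by
  have hsub : ∀ (a a' : Matrix n n S) (b b' : Matrix m m S),
      Matrix.fromBlocks a 0 0 b - Matrix.fromBlocks a' 0 0 b'
        = Matrix.fromBlocks (a - a') 0 0 (b - b') := by
    intro a a' b b'
    ext (i | i) (j | j) <;> simp
  have htr : ∀ (a : Matrix n n S) (b : Matrix m m S),
      (Matrix.fromBlocks a 0 0 b).trace = a.trace + b.trace := by
    intro a b
    simp [Matrix.trace, Fintype.sum_sum_type]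
  simp only [Theta, Matrix.fromBlocks_diagonal_pow, hsub, Matrix.fromBlocks_multiply,
    Matrix.mul_zero, Matrix.zero_mul, add_zero, zero_add, htr, Finset.sum_add_distrib]

lemma Theta_same (a : Matrix n n S) : Theta a a a a = 0 := by simp [Theta]

end

theorem abstract_main {A F S : Type} [CommRing A] [CommRing F] [CommRing S] (φ : A →+* F)
    {n : Type} [Fintype n] [DecidableEq n] (g0 g1 : Matrix n n A) (h0 : g0 ^ 5 = 1)
    (h1 : g1 ^ 5 = 1) (c c' : Matrix n n F) (hc : c * c' = 1) (hc' : c' * c = 1)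
    (hconj : c * g0.map φ * c' = g1.map φ) (ψ0 ψ1 ψ2 ψ3 : A →+* S) {ε1 ε2 ε3 : S}
    (d1 : ∀ a, ε1 ∣ ψ1 a - ψ0 a) (d2 : ∀ a, ε2 ∣ ψ2 a - ψ1 a) (d3 : ∀ a, ε3 ∣ ψ3 a - ψ2 a)
    (e1 : ε1 * ε2 * ε3 * ε1 = 0) (e2 : ε1 * ε2 * ε3 * ε2 = 0) (e3 : ε1 * ε2 * ε3 * ε3 = 0)
    (T : Matrix n n A → S)
    (hT : ∀ g, T g = Theta (g.map ψ0) (g.map ψ1) (g.map ψ2) (g.map ψ3))
    (hne : 2 * (T g0 + T (g0 ^ 4)) ≠ 2 * (T g1 + T (g1 ^ 4))) :
    ¬ Function.Injective (H3map φ).hom := by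
  obtain ⟨e, he⟩ := exists_injective_nat ((n ⊕ n) ⊕ (n ⊕ n))
  let GG : Matrix n n A → Matrix n n A → Matrix ((n ⊕ n) ⊕ (n ⊕ n)) ((n ⊕ n) ⊕ (n ⊕ n)) A :=
    fun g g' => Matrix.fromBlocks (Matrix.fromBlocks g 0 0 g') 0 0 1
  have hl : ∀ {g : Matrix n n A}, g ^ 5 = 1 → g * g ^ 4 = 1 := fun {g} h => by
    rw [← pow_succ', h]
  have hr : ∀ {g : Matrix n n A}, g ^ 5 = 1 → g ^ 4 * g = 1 := fun {g} h => by
    rw [← pow_succ, h]
  have hmem : ∀ {g : Matrix n n A}, g ^ 5 = 1 → GG g (g ^ 4) ∈ Elem _ A := fun h =>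
    fromBlocks_one_mem (whitehead (hl h) (hr h))
  have hinv : ∀ {g : Matrix n n A}, g ^ 5 = 1 → GG g (g ^ 4) * GG (g ^ 4) g = 1 := fun h => by
    simp [GG, Matrix.fromBlocks_multiply, hl h, hr h]
  have hpow : ∀ {g : Matrix n n A}, g ^ 5 = 1 → GG g (g ^ 4) ^ 5 = 1 := fun {g} h => by
    have : (g ^ 4) ^ 5 = 1 := by rw [← pow_mul, mul_comm, pow_mul, h, one_pow]
    simp [GG, Matrix.fromBlocks_diagonal_pow, h, this]
  obtain ⟨u0, hu0⟩ := exists_rep he (hmem h0)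
  obtain ⟨u1, hu1⟩ := exists_rep he (hmem h1)
  have hord : ∀ {g : Matrix n n A} {u : St A}, g ^ 5 = 1 → Rep e u (GG g (g ^ 4)) →
      dbl u ^ 5 = 1 := fun h hu => by
    refine dbl_pow ?_
    rw [map_pow, hu.pi_eq, blk_pow he, hpow h, blk_one]
  have hcc : Matrix.fromBlocks c 0 0 c * Matrix.fromBlocks c' 0 0 c' = 1 := by
    simp [Matrix.fromBlocks_multiply, hc]
  have hcc' : Matrix.fromBlocks c' 0 0 c' * Matrix.fromBlocks c 0 0 c = 1 := by
    simp [Matrix.fromBlocks_multiply, hc']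
  obtain ⟨w, hw⟩ := exists_rep he (whitehead hcc hcc')
  have hw' : Rep e w⁻¹ (Matrix.fromBlocks (Matrix.fromBlocks c' 0 0 c') 0 0
      (Matrix.fromBlocks c 0 0 c)) := hw.inv he (by
    rw [Matrix.fromBlocks_multiply, hcc, hcc']; simp)
  have hker : pi (w * stMap φ u0 * w⁻¹ * (stMap φ u1)⁻¹) = 1 := by
    rw [← map_inv, map_mul, map_mul, map_mul, hw.pi_eq, hw'.pi_eq, hu0.pi_map,
      (hu1.inv he (hinv h1)).pi_map, blk_mul he, blk_mul he, blk_mul he, ← blk_one e]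
    congr 1
    have a1 : c * (g0 ^ 4).map φ * c' = (g1 ^ 4).map φ := by
      have : ∀ k : ℕ, c * (g0 ^ k).map φ * c' = (g1 ^ k).map φ := by
        intro k
        induction k with
        | zero => simp [hc]
        | succ k ih =>
          rw [pow_succ, pow_succ, Matrix.map_mul, Matrix.map_mul, ← ih, ← hconj]
          calc c * ((g0 ^ k).map φ * g0.map φ) * c'
              = c * (g0 ^ k).map φ * (c' * c) * g0.map φ * c' := by rw [hc']; noncomm_ring
            _ = _ := by noncomm_ring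
      exact this 4
    have a2 : g1.map φ * (g1 ^ 4).map φ = 1 := by
      rw [← Matrix.map_mul, hl h1, Matrix.map_one _ φ.map_zero φ.map_one]
    have a3 : (g1 ^ 4).map φ * g1.map φ = 1 := by
      rw [← Matrix.map_mul, hr h1, Matrix.map_one _ φ.map_zero φ.map_one]
    simp only [GG, Matrix.fromBlocks_map, Matrix.map_zero _ φ.map_zero,
      Matrix.map_one _ φ.map_zero φ.map_one, Matrix.fromBlocks_multiply, Matrix.mul_zero,
      Matrix.zero_mul, add_zero, zero_add, Matrix.mul_one, hconj, a1, a2, a3, hc',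
      Matrix.fromBlocks_one]
  obtain ⟨w', hw'⟩ := dbl_conj hker
  rw [← stMap_dbl, ← stMap_dbl] at hw'
  have he2 : Function.Injective (Sum.elim (ev ∘ e) (od ∘ e)) :=
    (ev.injective.comp he).sumElim (od.injective.comp he) fun i j => ev_ne_od _ _
  have heval : ∀ {g : Matrix n n A} {u : St A}, g ^ 5 = 1 → Rep e u (GG g (g ^ 4)) →
      ∑ i ∈ Finset.range 5, coch (pi.comp (stMap ψ0)) (pi.comp (stMap ψ1)) (pi.comp (stMap ψ2))
        (pi.comp (stMap ψ3)) (dbl u) (dbl u ^ i) (dbl u) = cst S (2 * (T g + T (g ^ 4))) := by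
    intro g u h hu
    rw [coch_eval _ _ _ _ he2 (hord h hu) (hu.pi_dbl he (hinv h) ψ0) (hu.pi_dbl he (hinv h) ψ1)
      (hu.pi_dbl he (hinv h) ψ2) (hu.pi_dbl he (hinv h) ψ3)]
    congr 1
    simp only [GG, Matrix.fromBlocks_map, Matrix.map_zero _ (map_zero _),
      Matrix.map_one _ (map_zero _) (map_one _), Theta_fromBlocks, Theta_same, hT]
    ring
  refine not_injective_H3 (stMap φ) (trivialHom φ) (fun _ => rfl) (dbl u0) (dbl u1)
    (hord h0 hu0) (hord h1 hu1) w' hw'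
    (coch (pi.comp (stMap ψ0)) (pi.comp (stMap ψ1)) (pi.comp (stMap ψ2)) (pi.comp (stMap ψ3)))
    (coch_cocycle _ _ _ _ (exists_JJ ψ0 ψ1 d1) (exists_JJ ψ1 ψ2 d2) (exists_JJ ψ2 ψ3 d3) e1 e2 e3)
    ?_
  rw [heval h0 hu0, heval h1 hu1]
  exact cst_injective.ne hne

end Crest.Agent.R171
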