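import Crest.Agent.R171.St

/-! Finite matrices acting on columns, the trace, and the Dennis trace cocycle. -/

set_option autoImplicit false

namespace Crest.Agent.R171

open Crest.AlgebraR.Steinberg Filter

section Emb

variable {R : Type*} [CommRing R] {n m : Type*} [Fintype n] [Fintype m]

/-- A finite matrix placed at the indices `e`. -/
noncomputable def emb (e : n → ℕ) (M : Matrix n n R) : Module.End R (ℕ →₀ R) :=
  ∑ i, ∑ j, M i j • EE R (e i) (e j)

lemma emb_add (e : n → ℕ) (M N : Matrix n n R) : emb e (M + N) = emb e M + emb e N := by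
  simp [emb, add_smul, Finset.sum_add_distrib]

lemma emb_sub (e : n → ℕ) (M N : Matrix n n R) : emb e (M - N) = emb e M - emb e N := by
  have := emb_add e (M - N) N
  rw [sub_add_cancel] at this
  rw [this]
  abel

lemma emb_zero (e : n → ℕ) : emb e (0 : Matrix n n R) = 0 := by simp [emb]

lemma emb_mul {e : n → ℕ} (he : Function.Injective e) (M N : Matrix n n R) :
    emb e M * emb e N = emb e (M * N) := by
  classical
  unfold emb
  rw [Finset.sum_mul]
  refine Finset.sum_congr rfl fun i _ => ?_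
  rw [Finset.sum_mul]
  simp only [Finset.mul_sum, smul_mul_smul_comm, EE_mul, he.eq_iff, Matrix.mul_apply,
    Finset.sum_smul]
  rw [Finset.sum_comm (f := fun j k => (M i k * N k j) • EE R (e i) (e j))]
  refine Finset.sum_congr rfl fun j _ => ?_
  rw [Finset.sum_comm]
  refine Finset.sum_congr rfl fun l _ => ?_
  simp

lemma emb_mul_disj {e : n → ℕ} {e' : m → ℕ} (h : ∀ i j, e i ≠ e' j) (M : Matrix n n R)
    (N : Matrix m m R) : emb e M * emb e' N = 0 := by
  simp [emb, Finset.sum_mul, Finset.mul_sum, EE_mul_ne (h _ _)]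

lemma emb_fromBlocks (e : n → ℕ) (e' : m → ℕ) (M : Matrix n n R) (N : Matrix m m R) :
    emb (Sum.elim e e') (Matrix.fromBlocks M 0 0 N) = emb e M + emb e' N := by
  simp [emb, Fintype.sum_sum_type]

variable [DecidableEq n] [DecidableEq m]

lemma emb_single (e : n → ℕ) (i j : n) (a : R) :
    emb e (Matrix.single i j a) = a • EE R (e i) (e j) := by
  unfold emb
  rw [Finset.sum_eq_single i, Finset.sum_eq_single j]
  · simp
  · intro l _ hl
    simp [Ne.symm hl]
  · simp
  · intro k _ hk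
    simp [Ne.symm hk]
  · simp

/-- A finite matrix placed at the indices `e`, extended by the identity. -/
noncomputable def blk (e : n → ℕ) (M : Matrix n n R) : Module.End R (ℕ →₀ R) :=
  1 + emb e (M - 1)

lemma blk_one (e : n → ℕ) : blk e (1 : Matrix n n R) = 1 := by simp [blk, emb_zero]

lemma blk_mul_emb {e : n → ℕ} (he : Function.Injective e) (M N : Matrix n n R) :
    blk e M * emb e N = emb e (M * N) := by
  rw [blk, add_mul, one_mul, emb_mul he, ← emb_add]
  congr 1
  noncomm_ring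

lemma blk_mul {e : n → ℕ} (he : Function.Injective e) (M N : Matrix n n R) :
    blk e M * blk e N = blk e (M * N) := by
  conv_lhs => rw [blk.eq_def e N]
  rw [mul_add, mul_one, blk_mul_emb he, blk, blk, add_assoc, ← emb_add]
  congr 2
  noncomm_ring

lemma blk_pow {e : n → ℕ} (he : Function.Injective e) (M : Matrix n n R) (k : ℕ) :
    blk e M ^ k = blk e (M ^ k) := by
  induction k with
  | zero => simp [blk_one]
  | succ k ih => rw [pow_succ, pow_succ, ih, blk_mul he]

lemma blk_sub_blk (e : n → ℕ) (M N : Matrix n n R) : blk e M - blk e N = emb e (M - N) := by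
  rw [blk, blk, ← sub_sub_sub_cancel_right M N 1, emb_sub e (M - 1)]
  abel

lemma blk_fromBlocks {e : n → ℕ} {e' : m → ℕ} (h : ∀ i j, e i ≠ e' j) (M : Matrix n n R)
    (N : Matrix m m R) :
    blk (Sum.elim e e') (Matrix.fromBlocks M 0 0 N) = blk e M * blk e' N := by
  have : Matrix.fromBlocks M 0 0 N - 1 = Matrix.fromBlocks (M - 1) 0 0 (N - 1) := by
    ext (i | i) (j | j) <;> simp [Matrix.one_apply]
  rw [blk, this, emb_fromBlocks, blk, blk, add_mul, one_mul, mul_add, mul_one, emb_mul_disj h]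
  abel

lemma blk_transvection (e : n → ℕ) (i j : n) (a : R) :
    blk e (Matrix.transvection i j a) = 1 + a • EE R (e i) (e j) := by
  rw [blk, Matrix.transvection, add_sub_cancel_left, emb_single]

/-- The submonoid generated by transvections. -/
def Elem (n : Type*) [Fintype n] [DecidableEq n] (R : Type*) [CommRing R] :
    Submonoid (Matrix n n R) :=
  Submonoid.closure {M | ∃ i j, i ≠ j ∧ ∃ a, M = Matrix.transvection i j a}

lemma transvection_mem {i j : n} (h : i ≠ j) (a : R) : Matrix.transvection i j a ∈ Elem n R :=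
  Submonoid.subset_closure ⟨i, j, h, a, rfl⟩

lemma upper_mem (B : Matrix n m R) : Matrix.fromBlocks 1 B 0 1 ∈ Elem (n ⊕ m) R := by
  induction B using Matrix.induction_on' with
  | h_zero => rw [Matrix.fromBlocks_one]; exact one_mem _
  | h_add B B' h h' =>
    have := mul_mem h h'
    simpa [Matrix.fromBlocks_multiply, add_comm] using this
  | h_std_basis i j a =>
    have : Matrix.fromBlocks 1 (Matrix.single i j a) 0 1
        = Matrix.transvection (Sum.inl i : n ⊕ m) (Sum.inr j) a := by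
      rw [Matrix.transvection]
      ext (k | k) (l | l) <;> simp [Matrix.single, Matrix.one_apply]
    rw [this]
    exact transvection_mem (by simp) a

lemma lower_mem (B : Matrix m n R) : Matrix.fromBlocks 1 0 B 1 ∈ Elem (n ⊕ m) R := by
  induction B using Matrix.induction_on' with
  | h_zero => rw [Matrix.fromBlocks_one]; exact one_mem _
  | h_add B B' h h' =>
    have := mul_mem h h'
    simpa [Matrix.fromBlocks_multiply] using this
  | h_std_basis i j a =>
    have : Matrix.fromBlocks 1 0 (Matrix.single i j a) 1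
        = Matrix.transvection (Sum.inr i : n ⊕ m) (Sum.inl j) a := by
      rw [Matrix.transvection]
      ext (k | k) (l | l) <;> simp [Matrix.single, Matrix.one_apply]
    rw [this]
    exact transvection_mem (by simp) a

/-- The Whitehead lemma. -/
lemma whitehead {c c' : Matrix n n R} (h : c * c' = 1) (h' : c' * c = 1) :
    Matrix.fromBlocks c 0 0 c' ∈ Elem (n ⊕ n) R := by
  have := mul_mem (mul_mem (mul_mem (mul_mem (mul_mem (upper_mem c) (lower_mem (-c')))
    (upper_mem c)) (upper_mem (-1 : Matrix n n R))) (lower_mem (1 : Matrix n n R)))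
    (upper_mem (-1 : Matrix n n R))
  simpa [Matrix.fromBlocks_multiply, h, h'] using this

lemma fromBlocks_one_mem {M : Matrix n n R} (h : M ∈ Elem n R) :
    Matrix.fromBlocks M 0 0 (1 : Matrix m m R) ∈ Elem (n ⊕ m) R := by
  induction h using Submonoid.closure_induction with
  | mem M hM =>
    obtain ⟨i, j, hij, a, rfl⟩ := hM
    have : Matrix.fromBlocks (Matrix.transvection i j a) 0 0 (1 : Matrix m m R)
        = Matrix.transvection (Sum.inl i : n ⊕ m) (Sum.inl j) a := by
      rw [Matrix.transvection, Matrix.transvection]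
      ext (k | k) (l | l) <;> simp [Matrix.single, Matrix.one_apply]
    rw [this]
    exact transvection_mem (by simpa using hij) a
  | one => rw [Matrix.fromBlocks_one]; exact one_mem _
  | mul M N _ _ hM hN =>
    have := mul_mem hM hN
    simpa [Matrix.fromBlocks_multiply] using this

end Emb

section Rep

variable {R : Type} [CommRing R] {n : Type*} [Fintype n] [DecidableEq n]

/-- `u` represents the matrix `M`, naturally in the ring and the indices. -/
def Rep (e : n → ℕ) (u : St R) (M : Matrix n n R) : Prop :=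
  ∀ (S : Type) [CommRing S] (ψ : R →+* S) (σ : ℕ ↪ ℕ),
    pi (stMap ψ (reind σ u)) = blk (σ ∘ e) (M.map ψ)

lemma exists_rep {e : n → ℕ} (he : Function.Injective e) {M : Matrix n n R} (h : M ∈ Elem n R) :
    ∃ u, Rep e u M := by
  induction h using Submonoid.closure_induction with
  | mem M hM =>
    obtain ⟨i, j, hij, a, rfl⟩ := hM
    refine ⟨X (e i) (e j) a, fun S _ ψ σ => ?_⟩
    have : (Matrix.transvection i j a).map ψ = Matrix.transvection i j (ψ a) := by
      ext k l
      simp [Matrix.transvection, Matrix.single, Matrix.one_apply, apply_ite ψ]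
    rw [reind_X, stMap_X, pi_X (σ.injective.ne (he.ne hij)), this, blk_transvection]
    rfl
  | one => exact ⟨1, fun S _ ψ σ => by simp [blk_one]⟩
  | mul M N _ _ hM hN =>
    obtain ⟨u, hu⟩ := hM
    obtain ⟨v, hv⟩ := hN
    refine ⟨u * v, fun S _ ψ σ => ?_⟩
    rw [map_mul, map_mul, map_mul, hu, hv, blk_mul (σ.injective.comp he), Matrix.map_mul]

lemma Rep.inv {e : n → ℕ} (he : Function.Injective e) {u : St R} {M M' : Matrix n n R}
    (h : Rep e u M) (hM : M * M' = 1) : Rep e u⁻¹ M' := by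
  intro S _ ψ σ
  rw [← mul_one (pi _), ← blk_one (σ ∘ e), ← Matrix.map_one ψ ψ.map_zero ψ.map_one, ← hM,
    Matrix.map_mul, ← blk_mul (σ.injective.comp he), ← h, ← mul_assoc, ← map_mul, ← map_mul,
    ← map_mul, inv_mul_cancel]
  simp

lemma reind_refl (u : St R) : reind (Function.Embedding.refl ℕ) u = u := by
  have : reind (Function.Embedding.refl ℕ) = MonoidHom.id (St R) :=
    hom_ext fun i j _ a => by simp [reind_X]
  rw [this]; rfl

lemma stMap_id (u : St R) : stMap (RingHom.id R) u = u := by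
  have : stMap (RingHom.id R) = MonoidHom.id (St R) :=
    hom_ext fun i j _ a => by simp [stMap_X]
  rw [this]; rfl

lemma Rep.pi_map {e : n → ℕ} {u : St R} {M : Matrix n n R} (h : Rep e u M) {S : Type}
    [CommRing S] (ψ : R →+* S) : pi (stMap ψ u) = blk e (M.map ψ) := by
  have := h S ψ (Function.Embedding.refl ℕ)
  rwa [reind_refl] at this

lemma Rep.pi_eq {e : n → ℕ} {u : St R} {M : Matrix n n R} (h : Rep e u M) : pi u = blk e M := by
  have := h.pi_map (RingHom.id R)
  rwa [stMap_id] at this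

lemma Rep.pi_dbl {e : n → ℕ} (he : Function.Injective e) {u : St R} {M M' : Matrix n n R}
    (h : Rep e u M) (hM : M * M' = 1) {S : Type} [CommRing S] (ψ : R →+* S) :
    pi (stMap ψ (dbl u))
      = blk (Sum.elim (ev ∘ e) (od ∘ e)) ((Matrix.fromBlocks M 0 0 M').map ψ) := by
  rw [dbl, ← map_inv, map_mul, map_mul, h, h.inv he hM, Matrix.fromBlocks_map,
    Matrix.map_zero ψ ψ.map_zero, blk_fromBlocks (e := ev ∘ e) (e' := od ∘ e) (fun i j => ev_ne_od _ _)]

lemma stMap_dbl {S : Type} [CommRing S] (ψ : R →+* S) (u : St R) :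
    stMap ψ (dbl u) = dbl (stMap ψ u) := by
  rw [dbl, dbl, map_mul, map_inv, stMap_reind, stMap_reind]

end Rep

section Trace

variable {S : Type*} [CommRing S]

/-- The germ at infinity of the partial traces. -/
noncomputable def trG : Module.End S (ℕ →₀ S) →+ Germ (atTop : Filter ℕ) S where
  toFun M := ((fun N : ℕ => ∑ i ∈ Finset.range N, M (Finsupp.single i 1) i : ℕ → S) :
    Germ (atTop : Filter ℕ) S)
  map_zero' := by simp; rfl
  map_add' M M' := by
    rw [← Germ.coe_add]
    congr 1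
    ext N
    simp [Finset.sum_add_distrib]

lemma trG_rank (l : (ℕ →₀ S) →ₗ[S] S) (v : ℕ →₀ S) :
    trG (l.smulRight v) = ((l v : S) : Germ (atTop : Filter ℕ) S) := by
  obtain ⟨N, hN⟩ := v.support.exists_nat_subset_range
  change ((fun N : ℕ => ∑ i ∈ Finset.range N, (l.smulRight v) (Finsupp.single i 1) i : ℕ → S) :
    Germ (atTop : Filter ℕ) S) = ((fun _ => l v : ℕ → S) : Germ (atTop : Filter ℕ) S)
  rw [Germ.coe_eq]
  filter_upwards [eventually_ge_atTop N] with N' hN'
  have hsub : v.support ⊆ Finset.range N' := hN.trans (Finset.range_mono hN')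
  conv_rhs => rw [← Finsupp.sum_single v, Finsupp.sum_of_support_subset v hsub _ (by simp)]
  rw [map_sum]
  refine Finset.sum_congr rfl fun i _ => ?_
  have : Finsupp.single i (v i) = v i • Finsupp.single i (1 : S) := by simp
  rw [this, map_smul]
  simp [mul_comm]

/-- The ideal of finite rank endomorphisms. -/
noncomputable def JJ (S : Type*) [CommRing S] : AddSubmonoid (Module.End S (ℕ →₀ S)) :=
  AddSubmonoid.closure {f | ∃ (l : (ℕ →₀ S) →ₗ[S] S) (v : ℕ →₀ S), f = l.smulRight v}

lemma rank_mul (l : (ℕ →₀ S) →ₗ[S] S) (v : ℕ →₀ S) (N : Module.End S (ℕ →₀ S)) :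
    (l.smulRight v : Module.End S (ℕ →₀ S)) * N = (l ∘ₗ N).smulRight v := rfl

lemma mul_rank (l : (ℕ →₀ S) →ₗ[S] S) (v : ℕ →₀ S) (N : Module.End S (ℕ →₀ S)) :
    N * (l.smulRight v : Module.End S (ℕ →₀ S)) = l.smulRight (N v) :=
  LinearMap.ext fun w => by simp

lemma JJ_mul_right {M : Module.End S (ℕ →₀ S)} (h : M ∈ JJ S) (N : Module.End S (ℕ →₀ S)) :
    M * N ∈ JJ S := by
  induction h using AddSubmonoid.closure_induction with
  | mem M hM =>
    obtain ⟨l, v, rfl⟩ := hM
    exact AddSubmonoid.subset_closure ⟨_, _, rank_mul l v N⟩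
  | zero => simp
  | add M M' _ _ h h' => rw [add_mul]; exact add_mem h h'

lemma JJ_mul_left {M : Module.End S (ℕ →₀ S)} (h : M ∈ JJ S) (N : Module.End S (ℕ →₀ S)) :
    N * M ∈ JJ S := by
  induction h using AddSubmonoid.closure_induction with
  | mem M hM =>
    obtain ⟨l, v, rfl⟩ := hM
    exact AddSubmonoid.subset_closure ⟨_, _, mul_rank l v N⟩
  | zero => simp
  | add M M' _ _ h h' => rw [mul_add]; exact add_mem h h'

lemma JJ_smul {M : Module.End S (ℕ →₀ S)} (h : M ∈ JJ S) (c : S) : c • M ∈ JJ S := by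
  have := JJ_mul_left h (c • 1)
  simpa using this

lemma EE_eq_rank (i j : ℕ) :
    EE S i j = (Finsupp.lapply j : (ℕ →₀ S) →ₗ[S] S).smulRight (Finsupp.single i 1) :=
  LinearMap.ext fun v => by simp [EE_apply]

lemma EE_mem (i j : ℕ) : EE S i j ∈ JJ S := AddSubmonoid.subset_closure ⟨_, _, EE_eq_rank i j⟩

lemma trG_comm {M : Module.End S (ℕ →₀ S)} (h : M ∈ JJ S) (N : Module.End S (ℕ →₀ S)) :
    trG (M * N) = trG (N * M) := by
  induction h using AddSubmonoid.closure_induction with
  | mem M hM =>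
    obtain ⟨l, v, rfl⟩ := hM
    rw [rank_mul, mul_rank, trG_rank, trG_rank]
    rfl
  | zero => simp
  | add M M' _ _ h h' => rw [mul_add, add_mul, map_add, map_add, h, h']

lemma trG_smul_EE (a : S) (i j : ℕ) :
    trG (a • EE S i j) = (((if i = j then a else 0 : S)) : Germ (atTop : Filter ℕ) S) := by
  have : a • EE S i j
      = (Finsupp.lapply j : (ℕ →₀ S) →ₗ[S] S).smulRight (Finsupp.single i a) :=
    LinearMap.ext fun v => by simp [EE_apply, mul_comm]
  rw [this, trG_rank]
  simp [Finsupp.single_apply]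

/-- Constant germs. -/
noncomputable def cst (S : Type*) [CommRing S] : S →+ Germ (atTop : Filter ℕ) S where
  toFun a := (a : Germ (atTop : Filter ℕ) S)
  map_zero' := rfl
  map_add' _ _ := rfl

lemma cst_injective : Function.Injective (cst S) := fun _ _ h => Germ.const_inj.mp h

lemma trG_emb {n : Type*} [Fintype n] {e : n → ℕ} (he : Function.Injective e)
    (M : Matrix n n S) : trG (emb e M) = cst S M.trace := by
  classical
  simp only [emb, map_sum, trG_smul_EE, he.eq_iff, Matrix.trace, Matrix.diag]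
  refine Finset.sum_congr rfl fun i _ => ?_
  rw [Finset.sum_eq_single i]
  · simp only [if_true]; rfl
  · intro j _ hj
    simp only [if_neg hj.symm]; rfl
  · simp

/-- The cochain. -/
noncomputable def coch {G : Type*} [Group G] (p0 p1 p2 p3 : G →* Module.End S (ℕ →₀ S))
    (a b c : G) : Germ (atTop : Filter ℕ) S :=
  trG (p0 (a * b * c)⁻¹ * (p1 a - p0 a) * (p2 b - p1 b) * (p3 c - p2 c))

theorem cocycle_abs {G T M : Type*} [Group G] [Ring T] [Algebra S T] [AddCommGroup M]
    (tr : T →+ M) (J : T → Prop) (hl : ∀ a b, J a → J (b * a)) (hr : ∀ a b, J a → J (a * b))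
    (hc : ∀ a b, J a → tr (a * b) = tr (b * a)) (p0 p1 p2 p3 : G →* T)
    {ε1 ε2 ε3 : S} (h1 : ∀ g, ∃ M, J M ∧ p1 g = p0 g + ε1 • M)
    (h2 : ∀ g, ∃ M, J M ∧ p2 g = p1 g + ε2 • M) (h3 : ∀ g, ∃ M, J M ∧ p3 g = p2 g + ε3 • M)
    (e1 : ε1 * ε2 * ε3 * ε1 = 0) (e2 : ε1 * ε2 * ε3 * ε2 = 0) (e3 : ε1 * ε2 * ε3 * ε3 = 0)
    (C : G → G → G → M)
    (hC : ∀ a b c, C a b c = tr (p0 (a * b * c)⁻¹ * (p1 a - p0 a) * (p2 b - p1 b) * (p3 c - p2 c)))
    (a b c d : G) :
    C b c d - C (a * b) c d + C a (b * c) d - C a b (c * d) + C a b c = 0 := by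
  have k1 : p0 (b * c * d)⁻¹ = p0 (a * b * c * d)⁻¹ * p0 a := by
    rw [← map_mul]; congr 1; group
  have k2 : p0 (a * b * c)⁻¹ = p0 d * p0 (a * b * c * d)⁻¹ := by
    rw [← map_mul]; congr 1; group
  have k3 : a * (b * c) * d = a * b * c * d := by group
  have k4 : a * b * (c * d) = a * b * c * d := by group
  simp only [hC]
  rw [k1, k2, k3, k4]
  set x := p0 (a * b * c * d)⁻¹
  obtain ⟨M1, hM1, f1⟩ := h1 a
  obtain ⟨M2, -, f2⟩ := h2 b
  obtain ⟨M3, -, f3⟩ := h3 c
  obtain ⟨N1, -, g1⟩ := h1 d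
  obtain ⟨N2, -, g2⟩ := h2 d
  obtain ⟨N3, -, g3⟩ := h3 d
  have hJ : J (x * (p1 a - p0 a) * (p2 b - p1 b) * (p3 c - p2 c)) := by
    refine hr _ _ (hr _ _ (hl _ _ ?_))
    rw [f1, add_sub_cancel_left, Algebra.smul_def]
    exact hl _ _ hM1
  have hz : x * (p1 a - p0 a) * (p2 b - p1 b) * (p3 c - p2 c) * (p3 d - p0 d) = 0 := by
    have : p3 d - p0 d = ε1 • N1 + ε2 • N2 + ε3 • N3 := by rw [g3, g2, g1]; abel
    rw [this, f1, f2, f3]
    simp only [add_sub_cancel_left, mul_add, mul_smul_comm, smul_mul_assoc, smul_smul]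
    have a1 : ε1 * (ε3 * (ε2 * ε1)) = 0 := by rw [← e1]; ring
    have a2 : ε2 * (ε3 * (ε2 * ε1)) = 0 := by rw [← e2]; ring
    have a3 : ε3 * (ε3 * (ε2 * ε1)) = 0 := by rw [← e3]; ring
    rw [a1, a2, a3]
    simp
  have k5 : p0 d * x * (p1 a - p0 a) * (p2 b - p1 b) * (p3 c - p2 c)
      = p0 d * (x * (p1 a - p0 a) * (p2 b - p1 b) * (p3 c - p2 c)) := by noncomm_ring
  have hz' := congrArg (fun y => tr (-y)) hz
  simp only [neg_zero, map_zero] at hz'
  rw [k5, ← hc _ _ hJ, ← map_sub, ← map_add, ← map_sub, ← map_add, ← hz']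
  congr 1
  simp only [map_mul]
  noncomm_ring

theorem coch_cocycle {G : Type*} [Group G] (p0 p1 p2 p3 : G →* Module.End S (ℕ →₀ S))
    {ε1 ε2 ε3 : S} (h1 : ∀ g, ∃ M ∈ JJ S, p1 g = p0 g + ε1 • M)
    (h2 : ∀ g, ∃ M ∈ JJ S, p2 g = p1 g + ε2 • M) (h3 : ∀ g, ∃ M ∈ JJ S, p3 g = p2 g + ε3 • M)
    (e1 : ε1 * ε2 * ε3 * ε1 = 0) (e2 : ε1 * ε2 * ε3 * ε2 = 0) (e3 : ε1 * ε2 * ε3 * ε3 = 0)
    (a b c d : G) :
    coch p0 p1 p2 p3 b c d - coch p0 p1 p2 p3 (a * b) c d + coch p0 p1 p2 p3 a (b * c) d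
      - coch p0 p1 p2 p3 a b (c * d) + coch p0 p1 p2 p3 a b c = 0 :=
  cocycle_abs trG (· ∈ JJ S) (fun _ b h => JJ_mul_left h b) (fun _ b h => JJ_mul_right h b)
    (fun _ b h => trG_comm h b) p0 p1 p2 p3 h1 h2 h3 e1 e2 e3 _ (fun _ _ _ => rfl) a b c d

lemma exists_JJ {A : Type*} [CommRing A] (ψ ψ' : A →+* S) {ε : S} (h : ∀ a, ε ∣ ψ' a - ψ a)
    (u : St A) : ∃ M ∈ JJ S, (pi.comp (stMap ψ')) u = (pi.comp (stMap ψ)) u + ε • M := by
  induction u using St_induction with
  | one => exact ⟨0, zero_mem _, by simp⟩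
  | gen i j hij a =>
    obtain ⟨c, hc⟩ := h a
    refine ⟨c • EE S i j, JJ_smul (EE_mem i j) c, ?_⟩
    rw [MonoidHom.comp_apply, MonoidHom.comp_apply, stMap_X, stMap_X, pi_X hij, pi_X hij,
      smul_smul, ← hc, add_assoc, ← add_smul, add_sub_cancel]
  | mul u v hu hv =>
    obtain ⟨M, hM, hu⟩ := hu
    obtain ⟨N, hN, hv⟩ := hv
    refine ⟨(pi.comp (stMap ψ)) u * N + M * (pi.comp (stMap ψ)) v + ε • (M * N),
      add_mem (add_mem (JJ_mul_left hN _) (JJ_mul_right hM _)) (JJ_smul (JJ_mul_right hM _) _), ?_⟩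
    rw [map_mul, map_mul, hu, hv]
    simp only [mul_add, add_mul, smul_add, mul_smul_comm, smul_mul_assoc]
    abel

/-- The matrix expression computed by the cochain on the standard cycle. -/
def Theta {n : Type*} [Fintype n] [DecidableEq n] (a0 a1 a2 a3 : Matrix n n S) : S :=
  ∑ i ∈ Finset.range 5, (a0 ^ (8 - i) * (a1 - a0) * (a2 ^ i - a1 ^ i) * (a3 - a2)).trace

lemma coch_eval {G : Type*} [Group G] (p0 p1 p2 p3 : G →* Module.End S (ℕ →₀ S))
    {n : Type*} [Fintype n] [DecidableEq n] {e : n → ℕ} (he : Function.Injective e) {h : G}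
    (hh : h ^ 5 = 1) {a0 a1 a2 a3 : Matrix n n S} (e0 : p0 h = blk e a0) (e1 : p1 h = blk e a1)
    (e2 : p2 h = blk e a2) (e3 : p3 h = blk e a3) :
    ∑ i ∈ Finset.range 5, coch p0 p1 p2 p3 h (h ^ i) h = cst S (Theta a0 a1 a2 a3) := by
  rw [Theta, map_sum]
  refine Finset.sum_congr rfl fun i hi => ?_
  have hi' : i < 5 := Finset.mem_range.mp hi
  have : (h * h ^ i * h)⁻¹ = h ^ (8 - i) := by
    rw [inv_eq_iff_mul_eq_one, ← pow_succ', ← pow_succ, ← pow_add,
      show i + 1 + 1 + (8 - i) = 5 * 2 by omega, pow_mul, hh, one_pow]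
  rw [coch, this, map_pow, map_pow, map_pow, e0, e1, e2, e3, blk_pow he, blk_pow he, blk_pow he,
    blk_sub_blk, blk_sub_blk, blk_sub_blk, blk_mul_emb he, emb_mul he, emb_mul he, trG_emb he]

end Trace

end Crest.Agent.R171
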