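import Crest.Agent.R171.Blk

/-! The computation of the invariant over `ZMod 5`. -/

set_option autoImplicit false

namespace Crest.Agent.R171

section

variable {S : Type*} [CommRing S] {n : Type*} [Fintype n] [DecidableEq n]

/-- Divided differences of powers. -/
def DD (b a B : Matrix n n S) : ℕ → Matrix n n S
  | 0 => 0
  | i + 1 => DD b a B i * a + b ^ i * B

lemma pow_sub_pow_eq {a b B : Matrix n n S} {ε : S} (h : b - a = ε • B) (i : ℕ) :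
    b ^ i - a ^ i = ε • DD b a B i := by
  induction i with
  | zero => simp [DD]
  | succ i ih =>
    rw [DD, smul_add, ← smul_mul_assoc, ← mul_smul_comm, ← ih, ← h, pow_succ, pow_succ]
    noncomm_ring

lemma DD_map {T : Type*} [CommRing T] (r : S →+* T) (b a B : Matrix n n S) (i : ℕ) :
    (DD b a B i).map r = DD (b.map r) (a.map r) (B.map r) i := by
  induction i with
  | zero => simp [DD]
  | succ i ih =>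
    rw [DD, DD, Matrix.map_add _ (map_add r), Matrix.map_mul, Matrix.map_mul, ih, Matrix.map_pow]

/-- The reduced invariant. -/
def Theta' (a0 a1 a2 A1 A2 A3 : Matrix n n S) : S :=
  ∑ i ∈ Finset.range 5, (a0 ^ (8 - i) * A1 * DD a2 a1 A2 i * A3).trace

lemma Theta_eq {a0 a1 a2 a3 A1 A2 A3 : Matrix n n S} {ε1 ε2 ε3 : S} (h1 : a1 - a0 = ε1 • A1)
    (h2 : a2 - a1 = ε2 • A2) (h3 : a3 - a2 = ε3 • A3) :
    Theta a0 a1 a2 a3 = ε1 * ε2 * ε3 * Theta' a0 a1 a2 A1 A2 A3 := by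
  rw [Theta, Theta', Finset.mul_sum]
  refine Finset.sum_congr rfl fun i _ => ?_
  rw [h1, pow_sub_pow_eq h2, h3]
  simp only [mul_smul_comm, smul_mul_assoc, Matrix.trace_smul, smul_eq_mul]
  ring

lemma Theta'_map {T : Type*} [CommRing T] (r : S →+* T) (a0 a1 a2 A1 A2 A3 : Matrix n n S) :
    r (Theta' a0 a1 a2 A1 A2 A3)
      = Theta' (a0.map r) (a1.map r) (a2.map r) (A1.map r) (A2.map r) (A3.map r) := by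
  rw [Theta', Theta', map_sum]
  refine Finset.sum_congr rfl fun i _ => ?_
  rw [AddMonoidHom.map_trace, Matrix.map_mul, Matrix.map_mul, Matrix.map_mul, Matrix.map_pow,
    DD_map]

end

/-- A matrix over `ZMod 5`. -/
def g5 : Matrix (Fin 4) (Fin 4) (ZMod 5) := !![0, 4, 0, 0; 1, 2, 0, 0; 0, 0, 0, 4; 0, 0, 1, 2]

/-- A matrix over `ZMod 5`. -/
def A15 : Matrix (Fin 4) (Fin 4) (ZMod 5) := !![0, 0, 0, 0; 0, 1, 0, 0; 0, 0, 0, 0; 0, 0, 0, 4]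

/-- A matrix over `ZMod 5`. -/
def A25 : Matrix (Fin 4) (Fin 4) (ZMod 5) := !![0, 0, 0, 0; 0, 0, 0, 0; 0, 1, 0, 0; 0, 0, 0, 0]

/-- A matrix over `ZMod 5`. -/
def A35 : Matrix (Fin 4) (Fin 4) (ZMod 5) := !![0, 0, 0, 4; 0, 0, 0, 2; 0, 0, 0, 0; 0, 0, 0, 0]

lemma g5p0 : g5 ^ 0 = !![1, 0, 0, 0; 0, 1, 0, 0; 0, 0, 1, 0; 0, 0, 0, 1] := by
  rw [pow_zero]; decide +kernel

lemma g5p1 : g5 ^ 1 = !![0, 4, 0, 0; 1, 2, 0, 0; 0, 0, 0, 4; 0, 0, 1, 2] := by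
  rw [pow_succ, g5p0]; decide +kernel

lemma g5p2 : g5 ^ 2 = !![4, 3, 0, 0; 2, 3, 0, 0; 0, 0, 4, 3; 0, 0, 2, 3] := by
  rw [pow_succ, g5p1]; decide +kernel

lemma g5p3 : g5 ^ 3 = !![3, 2, 0, 0; 3, 4, 0, 0; 0, 0, 3, 2; 0, 0, 3, 4] := by
  rw [pow_succ, g5p2]; decide +kernel

lemma g5p4 : g5 ^ 4 = !![2, 1, 0, 0; 4, 0, 0, 0; 0, 0, 2, 1; 0, 0, 4, 0] := by
  rw [pow_succ, g5p3]; decide +kernel

lemma g5p5 : g5 ^ 5 = !![1, 0, 0, 0; 0, 1, 0, 0; 0, 0, 1, 0; 0, 0, 0, 1] := by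
  rw [pow_succ, g5p4]; decide +kernel

lemma g5p6 : g5 ^ 6 = !![0, 4, 0, 0; 1, 2, 0, 0; 0, 0, 0, 4; 0, 0, 1, 2] := by
  rw [pow_succ, g5p5]; decide +kernel

lemma g5p7 : g5 ^ 7 = !![4, 3, 0, 0; 2, 3, 0, 0; 0, 0, 4, 3; 0, 0, 2, 3] := by
  rw [pow_succ, g5p6]; decide +kernel

lemma g5p8 : g5 ^ 8 = !![3, 2, 0, 0; 3, 4, 0, 0; 0, 0, 3, 2; 0, 0, 3, 4] := by
  rw [pow_succ, g5p7]; decide +kernel

lemma d1_0 : DD g5 g5 A15 0 = !![0, 0, 0, 0; 0, 0, 0, 0; 0, 0, 0, 0; 0, 0, 0, 0] := by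
  rw [DD]; decide +kernel

lemma d1_1 : DD g5 g5 A15 1 = !![0, 0, 0, 0; 0, 1, 0, 0; 0, 0, 0, 0; 0, 0, 0, 4] := by
  rw [DD, d1_0, g5p0]; decide +kernel

lemma d1_2 : DD g5 g5 A15 2 = !![0, 4, 0, 0; 1, 4, 0, 0; 0, 0, 0, 1; 0, 0, 4, 1] := by
  rw [DD, d1_1, g5p1]; decide +kernel

lemma d1_3 : DD g5 g5 A15 3 = !![4, 1, 0, 0; 4, 0, 0, 0; 0, 0, 1, 4; 0, 0, 1, 0] := by
  rw [DD, d1_2, g5p2]; decide +kernel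

lemma d1_4 : DD g5 g5 A15 4 = !![1, 0, 0, 0; 0, 0, 0, 0; 0, 0, 4, 0; 0, 0, 0, 0] := by
  rw [DD, d1_3, g5p3]; decide +kernel

lemma d2_0 : DD g5 g5 A25 0 = !![0, 0, 0, 0; 0, 0, 0, 0; 0, 0, 0, 0; 0, 0, 0, 0] := by
  rw [DD]; decide +kernel

lemma d2_1 : DD g5 g5 A25 1 = !![0, 0, 0, 0; 0, 0, 0, 0; 0, 1, 0, 0; 0, 0, 0, 0] := by
  rw [DD, d2_0, g5p0]; decide +kernel

lemma d2_2 : DD g5 g5 A25 2 = !![0, 0, 0, 0; 0, 0, 0, 0; 1, 2, 0, 0; 0, 1, 0, 0] := by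
  rw [DD, d2_1, g5p1]; decide +kernel

lemma d2_3 : DD g5 g5 A25 3 = !![0, 0, 0, 0; 0, 0, 0, 0; 2, 2, 0, 0; 1, 4, 0, 0] := by
  rw [DD, d2_2, g5p2]; decide +kernel

lemma d2_4 : DD g5 g5 A25 4 = !![0, 0, 0, 0; 0, 0, 0, 0; 2, 0, 0, 0; 4, 0, 0, 0] := by
  rw [DD, d2_3, g5p3]; decide +kernel

lemma d3_0 : DD g5 g5 A35 0 = !![0, 0, 0, 0; 0, 0, 0, 0; 0, 0, 0, 0; 0, 0, 0, 0] := by
  rw [DD]; decide +kernel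

lemma d3_1 : DD g5 g5 A35 1 = !![0, 0, 0, 4; 0, 0, 0, 2; 0, 0, 0, 0; 0, 0, 0, 0] := by
  rw [DD, d3_0, g5p0]; decide +kernel

lemma d3_2 : DD g5 g5 A35 2 = !![0, 0, 4, 1; 0, 0, 2, 2; 0, 0, 0, 0; 0, 0, 0, 0] := by
  rw [DD, d3_1, g5p1]; decide +kernel

lemma d3_3 : DD g5 g5 A35 3 = !![0, 0, 1, 0; 0, 0, 2, 1; 0, 0, 0, 0; 0, 0, 0, 0] := by
  rw [DD, d3_2, g5p2]; decide +kernel

lemma d3_4 : DD g5 g5 A35 4 = !![0, 0, 0, 0; 0, 0, 1, 0; 0, 0, 0, 0; 0, 0, 0, 0] := by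
  rw [DD, d3_3, g5p3]; decide +kernel

/-- A matrix over `ZMod 5`. -/
def h5 : Matrix (Fin 4) (Fin 4) (ZMod 5) := !![2, 1, 0, 0; 4, 0, 0, 0; 0, 0, 2, 1; 0, 0, 4, 0]

/-- A matrix over `ZMod 5`. -/
def B15 : Matrix (Fin 4) (Fin 4) (ZMod 5) := !![1, 0, 0, 0; 0, 0, 0, 0; 0, 0, 4, 0; 0, 0, 0, 0]

/-- A matrix over `ZMod 5`. -/
def B25 : Matrix (Fin 4) (Fin 4) (ZMod 5) := !![0, 0, 0, 0; 0, 0, 0, 0; 2, 0, 0, 0; 4, 0, 0, 0]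

/-- A matrix over `ZMod 5`. -/
def B35 : Matrix (Fin 4) (Fin 4) (ZMod 5) := !![0, 0, 0, 0; 0, 0, 1, 0; 0, 0, 0, 0; 0, 0, 0, 0]

lemma h5p0 : h5 ^ 0 = !![1, 0, 0, 0; 0, 1, 0, 0; 0, 0, 1, 0; 0, 0, 0, 1] := by
  rw [pow_zero]; decide +kernel

lemma h5p1 : h5 ^ 1 = !![2, 1, 0, 0; 4, 0, 0, 0; 0, 0, 2, 1; 0, 0, 4, 0] := by
  rw [pow_succ, h5p0]; decide +kernel

lemma h5p2 : h5 ^ 2 = !![3, 2, 0, 0; 3, 4, 0, 0; 0, 0, 3, 2; 0, 0, 3, 4] := by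
  rw [pow_succ, h5p1]; decide +kernel

lemma h5p3 : h5 ^ 3 = !![4, 3, 0, 0; 2, 3, 0, 0; 0, 0, 4, 3; 0, 0, 2, 3] := by
  rw [pow_succ, h5p2]; decide +kernel

lemma h5p4 : h5 ^ 4 = !![0, 4, 0, 0; 1, 2, 0, 0; 0, 0, 0, 4; 0, 0, 1, 2] := by
  rw [pow_succ, h5p3]; decide +kernel

lemma h5p5 : h5 ^ 5 = !![1, 0, 0, 0; 0, 1, 0, 0; 0, 0, 1, 0; 0, 0, 0, 1] := by
  rw [pow_succ, h5p4]; decide +kernel

lemma h5p6 : h5 ^ 6 = !![2, 1, 0, 0; 4, 0, 0, 0; 0, 0, 2, 1; 0, 0, 4, 0] := by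
  rw [pow_succ, h5p5]; decide +kernel

lemma h5p7 : h5 ^ 7 = !![3, 2, 0, 0; 3, 4, 0, 0; 0, 0, 3, 2; 0, 0, 3, 4] := by
  rw [pow_succ, h5p6]; decide +kernel

lemma h5p8 : h5 ^ 8 = !![4, 3, 0, 0; 2, 3, 0, 0; 0, 0, 4, 3; 0, 0, 2, 3] := by
  rw [pow_succ, h5p7]; decide +kernel

lemma e2_0 : DD h5 h5 B25 0 = !![0, 0, 0, 0; 0, 0, 0, 0; 0, 0, 0, 0; 0, 0, 0, 0] := by
  rw [DD]; decide +kernel

lemma e2_1 : DD h5 h5 B25 1 = !![0, 0, 0, 0; 0, 0, 0, 0; 2, 0, 0, 0; 4, 0, 0, 0] := by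
  rw [DD, e2_0, h5p0]; decide +kernel

lemma e2_2 : DD h5 h5 B25 2 = !![0, 0, 0, 0; 0, 0, 0, 0; 2, 2, 0, 0; 1, 4, 0, 0] := by
  rw [DD, e2_1, h5p1]; decide +kernel

lemma e2_3 : DD h5 h5 B25 3 = !![0, 0, 0, 0; 0, 0, 0, 0; 1, 2, 0, 0; 0, 1, 0, 0] := by
  rw [DD, e2_2, h5p2]; decide +kernel

lemma e2_4 : DD h5 h5 B25 4 = !![0, 0, 0, 0; 0, 0, 0, 0; 0, 1, 0, 0; 0, 0, 0, 0] := by
  rw [DD, e2_3, h5p3]; decide +kernel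

lemma theta_g5 : Theta' g5 g5 g5 A15 A25 A35 = 4 := by
  simp only [Theta', Finset.sum_range_succ, Finset.sum_range_zero, Nat.sub_zero, Nat.reduceSub,
    g5p8, g5p7, g5p6, g5p5, g5p4, d2_0, d2_1, d2_2, d2_3, d2_4]
  decide +kernel

lemma theta_h5 : Theta' h5 h5 h5 B15 B25 B35 = 4 := by
  simp only [Theta', Finset.sum_range_succ, Finset.sum_range_zero, Nat.sub_zero, Nat.reduceSub,
    h5p8, h5p7, h5p6, h5p5, h5p4, e2_0, e2_1, e2_2, e2_3, e2_4]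
  decide +kernel

end Crest.Agent.R171
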