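import Mathlib

/-! The ramified regular local ring `(ℤ[X,Y,t]/(tY^5+X^2+5X+5))_{(X,Y)}`. -/

set_option autoImplicit false

namespace Crest.Agent.R171

open Polynomial

/-- The defining polynomial, linear in the outer variable, over `ℤ[X][Y]`. -/
noncomputable def ff : ℤ[X][X][X] := C (X ^ 5) * X + C (C (X ^ 2 + 5 * X + 5))

lemma ff_prime : Prime ff := by
  refine Irreducible.prime (irreducible_C_mul_X_add_C (pow_ne_zero _ X_ne_zero) ?_)
  refine IsRelPrime.pow_left ?_
  rw [(prime_X (R := ℤ[X])).irreducible.isRelPrime_iff_not_dvd, X_dvd_iff, coeff_C_zero]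
  intro h
  have := congrArg (eval 0) h
  simp at this

/-- The affine ring. -/
abbrev R0 : Type := AdjoinRoot ff

instance : IsDomain R0 := AdjoinRoot.isDomain_of_prime ff_prime

/-- The coordinate `X`. -/
noncomputable def xR : R0 := AdjoinRoot.of ff (C X)

/-- The coordinate `Y`. -/
noncomputable def yR : R0 := AdjoinRoot.of ff X

/-- The coordinate `t`. -/
noncomputable def tR : R0 := AdjoinRoot.root ff

/-- Maps out of the affine ring. -/
noncomputable def chi {S : Type*} [CommRing S] (x y t : S) (h : t * y ^ 5 + x ^ 2 + 5 * x + 5 = 0) :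
    R0 →+* S :=
  AdjoinRoot.lift (eval₂RingHom (eval₂RingHom (Int.castRingHom S) x) y) t (by
    simp only [ff, eval₂_add, eval₂_mul, eval₂_C, eval₂_X, coe_eval₂RingHom, eval₂_pow, eval₂_ofNat]
    rw [← h]; ring)

section

variable {S : Type*} [CommRing S] (x y t : S) (h : t * y ^ 5 + x ^ 2 + 5 * x + 5 = 0)

@[simp] lemma chi_x : chi x y t h xR = x := by simp [chi, xR]

@[simp] lemma chi_y : chi x y t h yR = y := by simp [chi, yR]

@[simp] lemma chi_t : chi x y t h tR = t := by simp [chi, tR]

end

lemma R0_ext {S : Type*} [CommRing S] {f g : R0 →+* S} (hx : f xR = g xR) (hy : f yR = g yR)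
    (ht : f tR = g tR) : f = g := by
  refine AdjoinRoot.ringHom_ext (Polynomial.ringHom_ext' (Polynomial.ringHom_ext' ?_ hx) hy) ht
  exact RingHom.ext_int _ _

lemma R0_rel : tR * yR ^ 5 + xR ^ 2 + 5 * xR + 5 = 0 := by
  have h : AdjoinRoot.mk ff (C (X ^ 5) * X + C (C (X ^ 2 + 5 * X + 5))) = 0 := AdjoinRoot.mk_self
  simp only [map_add, map_mul, map_pow, map_ofNat, AdjoinRoot.mk_C, AdjoinRoot.mk_X] at h
  rw [← h, xR, yR, tR]
  ring

instance : CharZero R0 := RingHom.charZero (chi (0 : ℤ) 1 (-5) (by norm_num))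

instance fact5 : Fact (Nat.Prime 5) := ⟨by norm_num⟩

/-- The residue field. -/
abbrev kk : Type := FractionRing (ZMod 5)[X]

lemma five_kk : (5 : kk) = 0 := by
  have : (5 : ZMod 5) = 0 := rfl
  rw [← map_ofNat (algebraMap (ZMod 5) kk) 5, this, map_zero]

/-- The transcendental element of the residue field. -/
noncomputable def tk : kk := algebraMap (ZMod 5)[X] kk X

lemma tk_ne_zero : tk ≠ 0 :=
  (map_ne_zero_iff _ (IsFractionRing.injective (ZMod 5)[X] kk)).mpr X_ne_zero

/-- The residue map. -/
noncomputable def rho : R0 →+* kk := chi 0 0 tk (by simp [five_kk])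

/-- The prime ideal. -/
noncomputable def pp : Ideal R0 := RingHom.ker rho

instance : pp.IsPrime := RingHom.ker_isPrime rho

lemma five_mem : (5 : R0) ∈ Ideal.span {xR, yR} := by
  have : (5 : R0) = (-xR - 5) * xR + (-tR * yR ^ 4) * yR := by
    linear_combination R0_rel
  rw [this]
  exact Ideal.mem_span_pair.mpr ⟨_, _, rfl⟩

lemma pp_eq : pp = Ideal.span {xR, yR} := by
  apply le_antisymm
  · intro a ha
    obtain ⟨q, rfl⟩ := AdjoinRoot.mk_surjective a
    let ev0 : ℤ[X][X] →+* ℤ := (evalRingHom 0).comp (evalRingHom 0)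
    let I : Ideal R0 := Ideal.span {xR, yR}
    have hx : Ideal.Quotient.mk I xR = 0 :=
      Ideal.Quotient.eq_zero_iff_mem.mpr (Ideal.subset_span (by simp))
    have hy : Ideal.Quotient.mk I yR = 0 :=
      Ideal.Quotient.eq_zero_iff_mem.mpr (Ideal.subset_span (by simp))
    have h5 : (5 : R0 ⧸ I) = 0 := by
      rw [← map_ofNat (Ideal.Quotient.mk I) 5]
      exact Ideal.Quotient.eq_zero_iff_mem.mpr five_mem
    let θ : ℤ[X] →+* R0 ⧸ I := eval₂RingHom (Int.castRingHom _) (Ideal.Quotient.mk I tR)
    have e1 : (Ideal.Quotient.mk I).comp (AdjoinRoot.mk ff) = θ.comp (mapRingHom ev0) := by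
      refine Polynomial.ringHom_ext' (Polynomial.ringHom_ext' (Polynomial.ringHom_ext'
        (RingHom.ext_int _ _) ?_) ?_) ?_
      · simpa [ev0, θ, xR] using hx
      · simpa [ev0, θ, yR] using hy
      · simp [θ, tR]
    have e2 : rho.comp (AdjoinRoot.mk ff) = (algebraMap (ZMod 5)[X] kk).comp
        ((mapRingHom (Int.castRingHom (ZMod 5))).comp (mapRingHom ev0)) := by
      refine Polynomial.ringHom_ext' (Polynomial.ringHom_ext' (Polynomial.ringHom_ext'
        (RingHom.ext_int _ _) ?_) ?_) ?_
      · have : rho xR = 0 := chi_x _ _ _ _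
        simpa [ev0, xR] using this
      · have : rho yR = 0 := chi_y _ _ _ _
        simpa [ev0, yR] using this
      · have : rho tR = tk := chi_t _ _ _ _
        simpa [tk, tR] using this
    have h1 : (q.map ev0).map (Int.castRingHom (ZMod 5)) = 0 := by
      apply IsFractionRing.injective (ZMod 5)[X] kk
      rw [map_zero]
      exact (RingHom.congr_fun e2 q).symm.trans ha
    have h2 : C (5 : ℤ) ∣ q.map ev0 := by
      rw [C_dvd_iff_dvd_coeff]
      intro i
      have := congrArg (coeff · i) h1
      simp only [coeff_map, coeff_zero, eq_intCast] at this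
      simpa using (ZMod.intCast_zmod_eq_zero_iff_dvd _ 5).mp this
    obtain ⟨p, hp⟩ := h2
    rw [← Ideal.Quotient.eq_zero_iff_mem]
    refine (RingHom.congr_fun e1 q).trans ?_
    change θ (q.map ev0) = 0
    rw [hp, map_mul, map_ofNat C, map_ofNat, h5, zero_mul]
  · rw [Ideal.span_le]
    rintro _ (rfl | rfl)
    · exact chi_x _ _ _ _
    · exact chi_y _ _ _ _

/-- A curve through the point. -/
noncomputable def kappa : R0 →+* kk[X] :=
  chi (C (tk ^ 3) * X ^ 5) (-(C tk * X ^ 2)) (C tk) (by
    have : (5 : kk[X]) = 0 := by rw [← map_ofNat C 5, five_kk, map_zero]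
    rw [this, map_pow]; ring)

lemma two_le_height : (2 : ℕ∞) ≤ pp.height := by
  have hq : (RingHom.ker kappa).IsPrime := RingHom.ker_isPrime kappa
  have h1 : (⊥ : Ideal R0) < RingHom.ker kappa := by
    refine bot_lt_iff_ne_bot.mpr fun h => ?_
    have : (5 : R0) ∈ RingHom.ker kappa := by
      rw [RingHom.mem_ker, map_ofNat, ← map_ofNat C 5, five_kk, map_zero]
    rw [h, Ideal.mem_bot] at this
    norm_num at this
  have h2 : RingHom.ker kappa < pp := by
    have e : rho = (evalRingHom 0).comp kappa :=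
      R0_ext (by simp [rho, kappa]) (by simp [rho, kappa]) (by simp [rho, kappa])
    refine lt_of_le_of_ne (fun a ha => ?_) fun h => ?_
    · rw [pp, RingHom.mem_ker, e, RingHom.comp_apply, RingHom.mem_ker.mp ha, map_zero]
    · have : yR ∈ RingHom.ker kappa := by
        rw [h]; exact chi_y _ _ _ _
      rw [RingHom.mem_ker, kappa, chi_y] at this
      simp [tk_ne_zero] at this
  have a1 := Ideal.height_strict_mono_of_isPrime h1
  have a2 := Ideal.height_strict_mono_of_isPrime h2
  rw [Ideal.height_bot] at a1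
  have a3 : (1 : ℕ∞) ≤ (RingHom.ker kappa).height := Order.one_le_iff_pos.mpr a1
  exact (Order.add_one_le_of_lt (lt_of_le_of_lt a3 a2))

/-- The local ring. -/
abbrev AA : Type := Localization.AtPrime pp

lemma maximalIdeal_AA : IsLocalRing.maximalIdeal AA
    = Ideal.span {algebraMap R0 AA xR, algebraMap R0 AA yR} := by
  rw [← Localization.AtPrime.map_eq_maximalIdeal, ← Set.image_pair, ← Ideal.map_span, ← pp_eq]

lemma spanFinrank_le : (IsLocalRing.maximalIdeal AA).spanFinrank ≤ 2 := by
  rw [maximalIdeal_AA]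
  refine (Submodule.spanFinrank_span_le_ncard_of_finite (by simp)).trans ?_
  refine (Set.ncard_insert_le _ _).trans ?_
  simp

lemma two_le_dim : (2 : WithBot ℕ∞) ≤ ringKrullDim AA := by
  rw [IsLocalization.AtPrime.ringKrullDim_eq_height pp AA]
  exact WithBot.coe_le_coe.mpr two_le_height

lemma dim_AA : ringKrullDim AA = 2 := by
  refine le_antisymm ((ringKrullDim_le_spanFinrank_maximalIdeal AA).trans ?_) two_le_dim
  exact_mod_cast spanFinrank_le

lemma regular_AA : IsRegularLocalRing AA := by
  refine IsRegularLocalRing.of_spanFinrank_maximalIdeal_le AA (le_trans ?_ two_le_dim)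
  exact_mod_cast spanFinrank_le

lemma algebraMap_AA_injective : Function.Injective (algebraMap R0 AA) :=
  IsLocalization.injective AA pp.primeCompl_le_nonZeroDivisors

lemma charZero_AA : CharZero AA := charZero_of_injective_ringHom algebraMap_AA_injective

lemma five_mem_sq : (5 : AA) ∈ IsLocalRing.maximalIdeal AA ^ 2 := by
  have hx : algebraMap R0 AA xR ∈ IsLocalRing.maximalIdeal AA := by
    rw [maximalIdeal_AA]; exact Ideal.subset_span (by simp)
  have hy : algebraMap R0 AA yR ∈ IsLocalRing.maximalIdeal AA := by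
    rw [maximalIdeal_AA]; exact Ideal.subset_span (by simp)
  have hrel := congrArg (algebraMap R0 AA) R0_rel
  simp only [map_add, map_mul, map_pow, map_ofNat, map_zero] at hrel
  set x := algebraMap R0 AA xR
  set y := algebraMap R0 AA yR
  set t := algebraMap R0 AA tR
  have h5 : (5 : AA) ∈ IsLocalRing.maximalIdeal AA := by
    have : (5 : AA) = (-x - 5) * x + (-t * y ^ 4) * y := by linear_combination hrel
    rw [this]
    exact add_mem (Ideal.mul_mem_left _ _ hx) (Ideal.mul_mem_left _ _ hy)
  have : (5 : AA) = -(x * x) - 5 * x + (-t * y ^ 3) * (y * y) := by linear_combination hrel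
  rw [this, pow_two]
  exact add_mem (sub_mem (neg_mem (Ideal.mul_mem_mul hx hx)) (Ideal.mul_mem_mul h5 hx))
    (Ideal.mul_mem_left _ _ (Ideal.mul_mem_mul hy hy))

end Crest.Agent.R171
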