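import Crest.Agent.R171.Calc
import Crest.Agent.R171.Ring

/-! The matrices of order five, the test ring, and the non-vanishing of the invariant. -/

set_option autoImplicit false
set_option linter.unnecessarySeqFocus false

namespace Crest.Agent.R171

section Mat

variable {R : Type*} [CommRing R]

/-- Multiplication by `T` on the sublattice. -/
def gm (τ y s : R) : Matrix (Fin 4) (Fin 4) R :=
  !![0, -1, 0, -s; 1, τ, 0, s * τ; 0, y, 0, -1 + s * y; 0, 0, 1, -1 - τ]

/-- Multiplication by `T` on `R[T]/Φ₅`. -/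
def gc (R : Type*) [CommRing R] : Matrix (Fin 4) (Fin 4) R :=
  !![0, 0, 0, -1; 1, 0, 0, -1; 0, 1, 0, -1; 0, 0, 1, -1]

/-- The change of basis. -/
def pm (τ y : R) : Matrix (Fin 4) (Fin 4) R :=
  !![y, 0, 1, 0; 0, y, -τ, 1; 0, 0, 1, -τ; 0, 0, 0, 1]

/-- The inverse change of basis. -/
def qm (τ y' : R) : Matrix (Fin 4) (Fin 4) R :=
  !![y', 0, -y', -(y' * τ); 0, y', y' * τ, -(y' * (1 - τ ^ 2)); 0, 0, 1, τ; 0, 0, 0, 1]

lemma gm_map {S : Type*} [CommRing S] (ψ : R →+* S) (τ y s : R) :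
    (gm τ y s).map ψ = gm (ψ τ) (ψ y) (ψ s) := by
  ext i j; fin_cases i <;> fin_cases j <;> simp [gm]

lemma gc_map {S : Type*} [CommRing S] (ψ : R →+* S) : (gc R).map ψ = gc S := by
  ext i j; fin_cases i <;> fin_cases j <;> simp [gc]

lemma gc_pow : gc R ^ 5 = 1 := by
  have h : gc ℤ ^ 5 = 1 := by decide +kernel
  rw [← gc_map (Int.castRingHom R), ← Matrix.map_pow, h, Matrix.map_one _ (map_zero _) (map_one _)]

lemma qm_mul_pm {τ y y' : R} (h : y' * y = 1) : qm τ y' * pm τ y = 1 := by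
  ext i j
  fin_cases i <;> fin_cases j <;> simp [qm, pm, Matrix.mul_apply, Fin.sum_univ_four, h] <;> ring

lemma gc_mul_pm {τ y s : R} (h : s * y + τ ^ 2 + τ - 1 = 0) :
    gc R * pm τ y = pm τ y * gm τ y s := by
  ext i j
  fin_cases i <;> fin_cases j <;> simp [gc, gm, pm, Matrix.mul_apply, Fin.sum_univ_four] <;>
    first
    | ring1
    | linear_combination h
    | linear_combination -h

end Mat

lemma key {S : Type*} [CommRing S] (r : S →+* kk) {y t ε1 ε2 ε3 : S} (hy : r y = 0)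
    (h1 : r ε1 = 0) (h2 : r ε2 = 0) {G0 G1 G2 G3 : Matrix (Fin 4) (Fin 4) S}
    (e0 : G0 = gm (0 + 2) y (t * y ^ 4)) (e1 : G1 = gm (ε1 + 2) y (t * y ^ 4))
    (e2 : G2 = gm (ε1 + 2) (y + ε2) (t * (y + ε2) ^ 4))
    (e3 : G3 = gm (ε1 + 2) (y + ε2) ((t + ε3) * (y + ε2) ^ 4)) :
    ∃ Θ : S, r Θ ≠ 0 ∧ 2 * (Theta G0 G1 G2 G3 + Theta (G0 ^ 4) (G1 ^ 4) (G2 ^ 4) (G3 ^ 4))
      = ε1 * ε2 * (ε3 * (y + ε2) ^ 4) * Θ := by
  let σ : S := t * (4 * y ^ 3 + 6 * y ^ 2 * ε2 + 4 * y * ε2 ^ 2 + ε2 ^ 3)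
  let A1 : Matrix (Fin 4) (Fin 4) S := !![0, 0, 0, 0; 0, 1, 0, t * y ^ 4; 0, 0, 0, 0; 0, 0, 0, -1]
  let A2 : Matrix (Fin 4) (Fin 4) S :=
    !![0, 0, 0, -σ; 0, 0, 0, σ * (ε1 + 2); 0, 1, 0, t * (y + ε2) ^ 4 + σ * y; 0, 0, 0, 0]
  let A3 : Matrix (Fin 4) (Fin 4) S :=
    !![0, 0, 0, -1; 0, 0, 0, ε1 + 2; 0, 0, 0, y + ε2; 0, 0, 0, 0]
  have d1 : G1 - G0 = ε1 • A1 := by
    rw [e0, e1]
    ext i j; fin_cases i <;> fin_cases j <;> simp [gm, A1] <;> ring
  have d2 : G2 - G1 = ε2 • A2 := by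
    rw [e1, e2]
    ext i j; fin_cases i <;> fin_cases j <;> simp [gm, A2, σ] <;> ring
  have d3 : G3 - G2 = (ε3 * (y + ε2) ^ 4) • A3 := by
    rw [e2, e3]
    ext i j; fin_cases i <;> fin_cases j <;> simp [gm, A3] <;> ring
  let ι : ZMod 5 →+* kk := algebraMap (ZMod 5) kk
  have c4 : (4 : kk) = -1 := by linear_combination five_kk
  have c2 : (-1 - 2 : kk) = 2 := by linear_combination -five_kk
  have m0 : G0.map r = g5.map ι := by
    rw [e0]
    ext i j; fin_cases i <;> fin_cases j <;> simp [gm, g5, hy, map_ofNat, c4, c2]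
  have m1 : G1.map r = g5.map ι := by
    rw [e1]
    ext i j; fin_cases i <;> fin_cases j <;> simp [gm, g5, hy, h1, map_ofNat, c4, c2]
  have m2 : G2.map r = g5.map ι := by
    rw [e2]
    ext i j; fin_cases i <;> fin_cases j <;> simp [gm, g5, hy, h1, h2, map_ofNat, c4, c2]
  have m3 : G3.map r = g5.map ι := by
    rw [e3]
    ext i j; fin_cases i <;> fin_cases j <;> simp [gm, g5, hy, h1, h2, map_ofNat, c4, c2]
  have n1 : A1.map r = A15.map ι := by
    ext i j; fin_cases i <;> fin_cases j <;> simp [A1, A15, hy, map_ofNat, c4]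
  have n2 : A2.map r = A25.map ι := by
    ext i j; fin_cases i <;> fin_cases j <;> simp [A2, σ, A25, hy, h2]
  have n3 : A3.map r = A35.map ι := by
    ext i j; fin_cases i <;> fin_cases j <;> simp [A3, A35, hy, h1, h2, map_ofNat, c4]
  refine ⟨2 * (Theta' G0 G1 G2 A1 A2 A3 + Theta' (G0 ^ 4) (G1 ^ 4) (G2 ^ 4) (DD G1 G0 A1 4)
    (DD G2 G1 A2 4) (DD G3 G2 A3 4)), ?_, ?_⟩
  · rw [map_mul, map_add, Theta'_map, Theta'_map]
    simp only [Matrix.map_pow, DD_map, m0, m1, m2, m3, n1, n2, n3]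
    simp only [← Matrix.map_pow, ← DD_map, ← Theta'_map, g5p4, d1_4, d2_4, d3_4]
    have a1 := theta_h5
    rw [h5, B15, B25, B35] at a1
    rw [a1, theta_g5, map_ofNat, ← map_add, ← map_ofNat ι 2, ← map_mul]
    exact (map_ne_zero ι).mpr (by decide)
  · rw [Theta_eq d1 d2 d3, Theta_eq (pow_sub_pow_eq d1 4) (pow_sub_pow_eq d2 4)
      (pow_sub_pow_eq d3 4)]
    ring

section Test

open MvPolynomial

theorem exists_test (k : Type) [Field k] :
    ∃ (S : Type) (_ : CommRing S) (v : Fin 4 → S) (c : k →+* S) (r : S →+* k),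
      v 0 ^ 5 = 0 ∧ v 1 ^ 2 = 0 ∧ v 2 ^ 2 = 0 ∧ v 3 ^ 2 = 0 ∧ (∀ i, r (v i) = 0) ∧
      (∀ a, r (c a) = a) ∧ (∀ a, r a ≠ 0 → IsUnit a) ∧ v 1 * v 2 * (v 3 * v 0 ^ 4) ≠ 0 := by
  let D : Set (Fin 4 →₀ ℕ) :=
    {Finsupp.single 0 5, Finsupp.single 1 2, Finsupp.single 2 2, Finsupp.single 3 2}
  let I : Ideal (MvPolynomial (Fin 4) k) := Ideal.span ((fun s => monomial s (1 : k)) '' D)
  let v : Fin 4 → MvPolynomial (Fin 4) k ⧸ I := fun i => Ideal.Quotient.mk I (MvPolynomial.X i)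
  have hv : ∀ (i : Fin 4) (n : ℕ), Finsupp.single i n ∈ D → v i ^ n = 0 := by
    intro i n h
    simp only [v]
    rw [← map_pow, X_pow_eq_monomial, Ideal.Quotient.eq_zero_iff_mem]
    exact Ideal.subset_span ⟨_, h, rfl⟩
  have v0 := hv 0 5 (by simp [D])
  have v1 := hv 1 2 (by simp [D])
  have v2 := hv 2 2 (by simp [D])
  have v3 := hv 3 2 (by simp [D])
  have hnil : ∀ i, IsNilpotent (v i) := by
    intro i
    fin_cases i
    exacts [⟨5, v0⟩, ⟨2, v1⟩, ⟨2, v2⟩, ⟨2, v3⟩]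
  have hI : I ≤ RingHom.ker (constantCoeff : MvPolynomial (Fin 4) k →+* k) := by
    rw [Ideal.span_le]
    rintro _ ⟨s, hs, rfl⟩
    rcases hs with rfl | rfl | rfl | rfl <;> simp [constantCoeff_monomial]
  let r : (MvPolynomial (Fin 4) k ⧸ I) →+* k :=
    Ideal.Quotient.lift I constantCoeff fun a ha => hI ha
  let c : k →+* MvPolynomial (Fin 4) k ⧸ I := (Ideal.Quotient.mk I).comp C
  have hr : ∀ i, r (v i) = 0 := fun i => constantCoeff_X k i
  have hc : ∀ a, r (c a) = a := fun a => constantCoeff_C (Fin 4) a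
  have key : ∀ a, IsNilpotent (a - c (r a)) := by
    intro a
    obtain ⟨p, rfl⟩ := Ideal.Quotient.mk_surjective a
    induction p using MvPolynomial.induction_on with
    | C a =>
      change IsNilpotent (c a - c (r (c a)))
      rw [hc, sub_self]
      exact IsNilpotent.zero
    | add p q hp hq =>
      have := (Commute.all _ _).isNilpotent_add hp hq
      rw [map_add, map_add, map_add, add_sub_add_comm]
      exact this
    | mul_X p i _ =>
      rw [map_mul, map_mul r, hr i, mul_zero, map_zero, sub_zero]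
      exact (Commute.all _ _).isNilpotent_mul_left (hnil i)
  refine ⟨_, inferInstance, v, c, r, v0, v1, v2, v3, hr, hc, fun a h => ?_, ?_⟩
  · have h1 : IsUnit (c (r a)) := (IsUnit.mk0 _ h).map c
    have := (key a).isUnit_add_right_of_commute h1 (Commute.all _ _)
    simpa using this
  · have e : (MvPolynomial.X 1 * MvPolynomial.X 2 * (MvPolynomial.X 3 * MvPolynomial.X 0 ^ 4) :
        MvPolynomial (Fin 4) k) = monomial (Finsupp.single 1 1 + Finsupp.single 2 1
          + (Finsupp.single 3 1 + Finsupp.single 0 4)) 1 := by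
      simp only [MvPolynomial.X, monomial_pow, monomial_mul]
      simp
    simp only [v, ← map_pow, ← map_mul]
    rw [e, Ne, Ideal.Quotient.eq_zero_iff_mem, mem_ideal_span_monomial_image]
    intro h
    obtain ⟨s, hs, hle⟩ := h (Finsupp.single 1 1 + Finsupp.single 2 1
      + (Finsupp.single 3 1 + Finsupp.single 0 4)) (by rw [mem_support_iff]; simp)
    rcases hs with rfl | rfl | rfl | rfl <;> simp [Finsupp.single_le_iff] at hle

end Test

section Psi

variable {S : Type} [CommRing S] (r : S →+* kk) (hu : ∀ a, r a ≠ 0 → IsUnit a)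

/-- Maps from the local ring to the test ring. -/
noncomputable def psi (x y t : S) (h : t * y ^ 5 + x ^ 2 + 5 * x + 5 = 0) (hx : r x = 0)
    (hy : r y = 0) (ht : r t = tk) : AA →+* S :=
  IsLocalization.lift (M := pp.primeCompl) (g := chi x y t h) (fun a => by
    have e : r.comp (chi x y t h) = rho :=
      R0_ext (by simp [rho, hx]) (by simp [rho, hy]) (by simp [rho, ht])
    refine hu _ ?_
    rw [← RingHom.comp_apply, e]
    exact a.2)

lemma psi_algebraMap (x y t : S) (h hx hy ht) (a : R0) :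
    psi r hu x y t h hx hy ht (algebraMap R0 AA a) = chi x y t h a :=
  IsLocalization.lift_eq _ a

lemma psi_dvd {x y t x' y' t' ε : S} (h hx hy ht h' hx' hy' ht') (dx : ε ∣ x' - x)
    (dy : ε ∣ y' - y) (dt : ε ∣ t' - t) (a : AA) :
    ε ∣ psi r hu x' y' t' h' hx' hy' ht' a - psi r hu x y t h hx hy ht a := by
  have e : (Ideal.Quotient.mk (Ideal.span {ε})).comp (psi r hu x' y' t' h' hx' hy' ht')
      = (Ideal.Quotient.mk (Ideal.span {ε})).comp (psi r hu x y t h hx hy ht) := by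
    refine IsLocalization.ringHom_ext pp.primeCompl (R0_ext ?_ ?_ ?_)
    · simpa [psi_algebraMap, Ideal.Quotient.eq, Ideal.mem_span_singleton] using dx
    · simpa [psi_algebraMap, Ideal.Quotient.eq, Ideal.mem_span_singleton] using dy
    · simpa [psi_algebraMap, Ideal.Quotient.eq, Ideal.mem_span_singleton] using dt
  have := RingHom.congr_fun e a
  simpa [Ideal.Quotient.eq, Ideal.mem_span_singleton] using this

end Psi

end Crest.Agent.R171
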