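import Crest.Agent.R171.Key
import Crest.Agent.R171.Abs

/-! Failure of injectivity on the third homology of Steinberg groups. -/

set_option autoImplicit false

namespace Crest.Agent.R171

open Crest.AlgebraR.Steinberg

theorem main_abs {A F : Type} [CommRing A] [Field F] (φ : A →+* F) (hφ : Function.Injective φ)
    (x y t : A) (hrel : t * y ^ 5 + x ^ 2 + 5 * x + 5 = 0) (hy : y ≠ 0)
    {S : Type} [CommRing S] (r : S →+* kk) (hu : ∀ a, r a ≠ 0 → IsUnit a) (v : Fin 4 → S) (t' : S)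
    (v1 : v 1 ^ 2 = 0) (v2 : v 2 ^ 2 = 0) (v3 : v 3 ^ 2 = 0) (hr : ∀ i, r (v i) = 0)
    (hω : v 1 * v 2 * (v 3 * v 0 ^ 4) ≠ 0) (ψ0 ψ1 ψ2 ψ3 : A →+* S)
    (x0 : ψ0 x = 0) (y0 : ψ0 y = v 0) (t0 : ψ0 t = t')
    (x1 : ψ1 x = v 1) (y1 : ψ1 y = v 0) (t1 : ψ1 t = t')
    (x2 : ψ2 x = v 1) (y2 : ψ2 y = v 0 + v 2) (t2 : ψ2 t = t')
    (x3 : ψ3 x = v 1) (y3 : ψ3 y = v 0 + v 2) (t3 : ψ3 t = t' + v 3)
    (d1 : ∀ a, v 1 ∣ ψ1 a - ψ0 a) (d2 : ∀ a, v 2 ∣ ψ2 a - ψ1 a) (d3 : ∀ a, v 3 ∣ ψ3 a - ψ2 a) :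
    ¬ Function.Injective (H3map φ).hom := by
  have hy' : φ y ≠ 0 := (map_ne_zero_iff φ hφ).mpr hy
  have hqp : qm (φ (x + 2)) (φ y)⁻¹ * pm (φ (x + 2)) (φ y) = 1 := qm_mul_pm (inv_mul_cancel₀ hy')
  have hpq : pm (φ (x + 2)) (φ y) * qm (φ (x + 2)) (φ y)⁻¹ = 1 := mul_eq_one_comm.mp hqp
  have hrel' : φ (t * y ^ 4) * φ y + φ (x + 2) ^ 2 + φ (x + 2) - 1 = 0 := by
    have : t * y ^ 4 * y + (x + 2) ^ 2 + (x + 2) - 1 = 0 := by linear_combination hrel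
    have := congrArg φ this
    simpa only [map_sub, map_add φ (_ + _), map_add φ (_ * _), map_mul φ (_ * _), map_pow, map_one,
      map_zero] using this
  have hconj : qm (φ (x + 2)) (φ y)⁻¹ * (gc A).map φ * pm (φ (x + 2)) (φ y)
      = (gm (x + 2) y (t * y ^ 4)).map φ := by
    rw [gc_map, gm_map, mul_assoc, gc_mul_pm hrel', ← mul_assoc, hqp, one_mul]
  have h1 : gm (x + 2) y (t * y ^ 4) ^ 5 = 1 := by
    apply Matrix.map_injective hφ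
    change (gm (x + 2) y (t * y ^ 4) ^ 5).map φ = (1 : Matrix (Fin 4) (Fin 4) A).map φ
    have : ∀ k : ℕ, (qm (φ (x + 2)) (φ y)⁻¹ * gc F * pm (φ (x + 2)) (φ y)) ^ k
        = qm (φ (x + 2)) (φ y)⁻¹ * gc F ^ k * pm (φ (x + 2)) (φ y) := by
      intro k
      induction k with
      | zero => rw [pow_zero, pow_zero, mul_one, hqp]
      | succ k ih =>
        rw [pow_succ, ih, pow_succ]
        calc _ = qm (φ (x + 2)) (φ y)⁻¹ * gc F ^ k * (pm (φ (x + 2)) (φ y)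
            * qm (φ (x + 2)) (φ y)⁻¹) * gc F * pm (φ (x + 2)) (φ y) := by noncomm_ring
          _ = _ := by rw [hpq]; noncomm_ring
    rw [Matrix.map_pow, ← hconj, gc_map, this, gc_pow, mul_one, hqp,
      Matrix.map_one _ (map_zero _) (map_one _)]
  refine abstract_main φ (gc A) (gm (x + 2) y (t * y ^ 4)) gc_pow h1 _ _ hqp hpq hconj
    ψ0 ψ1 ψ2 ψ3 d1 d2 d3 (by linear_combination v 2 * v 3 * v1)
    (by linear_combination v 1 * v 3 * v2) (by linear_combination v 1 * v 2 * v3)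
    _ (fun _ => rfl) ?_
  obtain ⟨Θ, hΘ, e⟩ := key r (t := t') (ε3 := v 3) (hr 0) (hr 1) (hr 2) rfl rfl rfl rfl
  simp only [Matrix.map_pow, gc_map, gm_map, Theta_same, map_add, map_mul, map_pow, map_ofNat,
    x0, y0, t0, x1, y1, t1, x2, y2, t2, x3, y3, t3, e, add_zero, mul_zero]
  have : v 1 * v 2 * (v 3 * (v 0 + v 2) ^ 4) = v 1 * v 2 * (v 3 * v 0 ^ 4) := by
    linear_combination (v 1 * v 3 * (4 * v 0 ^ 3 + 6 * v 0 ^ 2 * v 2 + 4 * v 0 * v 2 ^ 2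
      + v 2 ^ 3)) * v2
  rw [this]
  exact fun h => hω ((hu _ hΘ).mul_left_eq_zero.mp h.symm)

/-- The inclusion into the fraction ring. -/
noncomputable def fr (A : Type) [CommRing A] : A →+* FractionRing A := algebraMap A (FractionRing A)

lemma frac_inj (A : Type) [CommRing A] : Function.Injective (fr A) :=
  IsFractionRing.injective A (FractionRing A)

theorem not_injective : ¬ Function.Injective (H3map (fr AA)).hom := by
  obtain ⟨S, _, v, c, r, v0, v1, v2, v3, hr, hc, hu, hω⟩ := exists_test kk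
  have h5 : (5 : S) = 0 := by rw [← map_ofNat c 5, five_kk, map_zero]
  have hy5 : (v 0 + v 2) ^ 5 = 0 := by
    linear_combination v0 + (v 0 ^ 4 * v 2 + 2 * v 0 ^ 3 * v 2 ^ 2 + 2 * v 0 ^ 2 * v 2 ^ 3
      + v 0 * v 2 ^ 4) * h5 + v 2 ^ 3 * v2
  have r0 : c tk * v 0 ^ 5 + 0 ^ 2 + 5 * 0 + 5 = 0 := by rw [v0, h5]; ring
  have r1 : c tk * v 0 ^ 5 + v 1 ^ 2 + 5 * v 1 + 5 = 0 := by rw [v0, v1, h5]; ring
  have r2 : c tk * (v 0 + v 2) ^ 5 + v 1 ^ 2 + 5 * v 1 + 5 = 0 := by rw [hy5, v1, h5]; ring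
  have r3 : (c tk + v 3) * (v 0 + v 2) ^ 5 + v 1 ^ 2 + 5 * v 1 + 5 = 0 := by
    rw [hy5, v1, h5]; ring
  have s2 : r (v 0 + v 2) = 0 := by simp [hr]
  have s3 : r (c tk + v 3) = tk := by simp [hr, hc]
  have hrel := congrArg (algebraMap R0 AA) R0_rel
  simp only [map_add, map_mul, map_pow, map_ofNat, map_zero] at hrel
  have hy : algebraMap R0 AA yR ≠ 0 := by
    rw [map_ne_zero_iff _ algebraMap_AA_injective]
    intro h
    have := congrArg (chi (0 : ℤ) 1 (-5) (by norm_num)) h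
    simp at this
  refine main_abs _ (frac_inj AA) _ _ _ hrel hy r hu v (c tk)
    v1 v2 v3 hr hω (psi r hu _ _ _ r0 (map_zero r) (hr 0) (hc _))
    (psi r hu _ _ _ r1 (hr 1) (hr 0) (hc _)) (psi r hu _ _ _ r2 (hr 1) s2 (hc _))
    (psi r hu _ _ _ r3 (hr 1) s2 s3) ?_ ?_ ?_ ?_ ?_ ?_ ?_ ?_ ?_ ?_ ?_ ?_
    (psi_dvd r hu _ _ _ _ _ _ _ _ (by simp) (by simp) (by simp))
    (psi_dvd r hu _ _ _ _ _ _ _ _ (by simp) (by simp) (by simp))
    (psi_dvd r hu _ _ _ _ _ _ _ _ (by simp) (by simp) (by simp)) <;>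
  simp [psi_algebraMap]

end Crest.Agent.R171
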