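import Mathlib
import Crest.Prelude.Def_Steinberg

/-! Basic theory of the stable Steinberg group of a commutative ring. -/

set_option autoImplicit false

namespace Crest.Agent.R171

open Crest.AlgebraR.Steinberg

variable {R : Type*} [CommRing R]

/-- The generator `x_{ij}(a)` (and `1` if `i = j`). -/
def X (i j : ℕ) (a : R) : St R :=
  if h : i ≠ j then PresentedGroup.mk (rels R) (x i j h a) else 1

lemma X_eq {i j : ℕ} (h : i ≠ j) (a : R) : X i j a = PresentedGroup.mk (rels R) (x i j h a) :=
  dif_pos h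

lemma X_self (i : ℕ) (a : R) : X i i a = 1 := by simp [X]

lemma X_add (i j : ℕ) (a b : R) : X i j a * X i j b = X i j (a + b) := by
  by_cases h : i = j
  · subst h; simp [X_self]
  · rw [X_eq h, X_eq h, X_eq h, ← map_mul]
    exact PresentedGroup.mk_eq_mk_of_mul_inv_mem (Or.inl (Or.inl ⟨i, j, h, a, b, rfl⟩))

lemma X_zero (i j : ℕ) : X i j (0 : R) = 1 := by
  have := X_add i j (0 : R) 0
  rw [add_zero] at this
  exact mul_eq_left.mp this

lemma X_inv (i j : ℕ) (a : R) : (X i j a)⁻¹ = X i j (-a) := by
  rw [inv_eq_iff_mul_eq_one, X_add, add_neg_cancel, X_zero]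

lemma X_comm {i j k l : ℕ} (hjk : j ≠ k) (hil : i ≠ l) (a b : R) :
    Commute (X i j a) (X k l b) := by
  by_cases h : i = j
  · subst h; simp [X_self]
  by_cases h' : k = l
  · subst h'; simp [X_self]
  have := PresentedGroup.one_of_mem (rels := rels R)
    (Or.inl (Or.inr ⟨i, j, k, l, h, h', a, b, hjk, hil, rfl⟩))
  simp only [map_mul, map_inv, ← X_eq] at this
  rw [Commute, SemiconjBy, ← mul_inv_eq_one, mul_inv_rev, ← mul_assoc]
  exact this

lemma X_commutator {i j l : ℕ} (hij : i ≠ j) (hjl : j ≠ l) (hil : i ≠ l) (a b : R) :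
    X i j a * X j l b * (X i j a)⁻¹ * (X j l b)⁻¹ = X i l (a * b) := by
  have := PresentedGroup.one_of_mem (rels := rels R)
    (Or.inr ⟨i, j, l, hij, hjl, hil, a, b, rfl⟩)
  simp only [map_mul, map_inv, ← X_eq] at this
  exact mul_inv_eq_one.mp this

/-- The universal property of the Steinberg group. -/
def lift {G : Type*} [Group G] (f : ℕ → ℕ → R → G)
    (h1 : ∀ i j, i ≠ j → ∀ a b, f i j a * f i j b = f i j (a + b))
    (h2 : ∀ i j k l, i ≠ j → k ≠ l → j ≠ k → i ≠ l → ∀ a b, Commute (f i j a) (f k l b))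
    (h3 : ∀ i j l, i ≠ j → j ≠ l → i ≠ l → ∀ a b,
      f i j a * f j l b * (f i j a)⁻¹ * (f j l b)⁻¹ = f i l (a * b)) : St R →* G :=
  PresentedGroup.toGroup (f := fun g : Gen R => f g.1.1.1 g.1.1.2 g.2) (by
    rintro r ((⟨i, j, h, a, b, rfl⟩ | ⟨i, j, k, l, hij, hkl, a, b, hjk, hil, rfl⟩) |
      ⟨i, j, l, hij, hjl, hil, a, b, rfl⟩)
    · simp [x, h1 i j h]
    · simp [x, (h2 i j k l hij hkl hjk hil a b).eq]
    · simp only [x, map_mul, map_inv, FreeGroup.lift_apply_of]
      rw [h3 i j l hij hjl hil, mul_inv_cancel])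

lemma lift_X {G : Type*} [Group G] (f : ℕ → ℕ → R → G) (h1 h2 h3) {i j : ℕ} (h : i ≠ j) (a : R) :
    lift f h1 h2 h3 (X i j a) = f i j a := by
  rw [X_eq h]
  exact PresentedGroup.toGroup.of _

lemma St_induction {P : St R → Prop} (one : P 1) (gen : ∀ i j, i ≠ j → ∀ a, P (X i j a))
    (mul : ∀ u v, P u → P v → P (u * v)) (u : St R) : P u := by
  have hu : u ∈ Subgroup.closure (Set.range (PresentedGroup.of : Gen R → St R)) := by
    rw [PresentedGroup.closure_range_of]; trivial
  induction hu using Subgroup.closure_induction'' with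
  | mem y hy =>
    obtain ⟨⟨⟨⟨i, j⟩, h⟩, a⟩, rfl⟩ := hy
    have := gen i j h a
    rwa [X_eq h] at this
  | inv_mem y hy =>
    obtain ⟨⟨⟨⟨i, j⟩, h⟩, a⟩, rfl⟩ := hy
    have := gen i j h (-a)
    rwa [← X_inv, X_eq h] at this
  | one => exact one
  | mul u v _ _ hu hv => exact mul u v hu hv

lemma hom_ext {G : Type*} [Monoid G] {f g : St R →* G}
    (h : ∀ i j, i ≠ j → ∀ a, f (X i j a) = g (X i j a)) : f = g := by
  ext u
  induction u using St_induction with
  | one => simp
  | gen i j hij a => exact h i j hij a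
  | mul u v hu hv => simp [hu, hv]

lemma stMap_X {S : Type*} [CommRing S] (ψ : R →+* S) (i j : ℕ) (a : R) :
    stMap ψ (X i j a) = X i j (ψ a) := by
  by_cases h : i = j
  · subst h; simp [X_self]
  · rw [X_eq h, X_eq h]
    change PresentedGroup.mk (rels S) (FreeGroup.map (genMap ψ) (x i j h a)) = _
    simp [x, genMap]

/-- Reindexing along an injective map. -/
def reind (σ : ℕ ↪ ℕ) : St R →* St R :=
  lift (fun i j a => X (σ i) (σ j) a) (fun _ _ _ a b => X_add _ _ a b)
    (fun _ _ _ _ _ _ hjk hil a b => X_comm (σ.injective.ne hjk) (σ.injective.ne hil) a b)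
    (fun _ _ _ hij hjl hil a b =>
      X_commutator (σ.injective.ne hij) (σ.injective.ne hjl) (σ.injective.ne hil) a b)

lemma reind_X (σ : ℕ ↪ ℕ) (i j : ℕ) (a : R) : reind σ (X i j a) = X (σ i) (σ j) a := by
  by_cases h : i = j
  · subst h; simp [X_self]
  · exact lift_X _ _ _ _ h a

lemma reind_reind (σ σ' : ℕ ↪ ℕ) (u : St R) : reind σ' (reind σ u) = reind (σ.trans σ') u := by
  have : (reind σ').comp (reind σ) = (reind (σ.trans σ') : St R →* St R) :=
    hom_ext fun i j _ a => by simp [reind_X]
  exact DFunLike.congr_fun this u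

lemma stMap_reind {S : Type*} [CommRing S] (ψ : R →+* S) (σ : ℕ ↪ ℕ) (u : St R) :
    stMap ψ (reind σ u) = reind σ (stMap ψ u) := by
  have : (stMap ψ).comp (reind σ) = (reind σ).comp (stMap ψ) :=
    hom_ext fun i j _ a => by simp [reind_X, stMap_X]
  exact DFunLike.congr_fun this u

/-- The transpose-inverse automorphism. -/
def tau : St R →* St R :=
  lift (fun i j a => X j i (-a)) (fun _ _ _ a b => by rw [X_add, neg_add])
    (fun _ _ _ _ _ _ hjk hil a b => X_comm hil hjk _ _)
    (fun i j l hij hjl hil a b => by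
      have := X_commutator hjl.symm hij.symm hil.symm (-b) (-a)
      rw [neg_mul_neg, mul_comm b a] at this
      rw [← X_inv l i (a * b), ← this]
      group)

lemma tau_X (i j : ℕ) (a : R) : tau (X i j a) = X j i (-a) := by
  by_cases h : i = j
  · subst h; simp [X_self]
  · exact lift_X _ _ _ _ h a

lemma tau_tau (u : St R) : tau (tau u) = u := by
  have : tau.comp tau = MonoidHom.id (St R) := hom_ext fun i j _ a => by simp [tau_X]
  exact DFunLike.congr_fun this u

lemma tau_reind (σ : ℕ ↪ ℕ) (u : St R) : tau (reind σ u) = reind σ (tau u) := by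
  have : tau.comp (reind σ) = (reind σ).comp (tau : St R →* St R) :=
    hom_ext fun i j _ a => by simp [reind_X, tau_X]
  exact DFunLike.congr_fun this u

/-- Matrix units acting on finitely supported columns. -/
noncomputable def EE (R : Type*) [CommRing R] (i j : ℕ) : Module.End R (ℕ →₀ R) :=
  Finsupp.lsingle i ∘ₗ Finsupp.lapply j

lemma EE_apply (i j : ℕ) (v : ℕ →₀ R) : EE R i j v = Finsupp.single i (v j) := rfl

lemma EE_mul (i j k l : ℕ) : EE R i j * EE R k l = if j = k then EE R i l else 0 := by
  refine LinearMap.ext fun v => ?_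
  rw [Module.End.mul_apply, EE_apply, EE_apply]
  by_cases h : j = k
  · subst h; simp [EE_apply]
  · simp [h, Finsupp.single_eq_of_ne h]

lemma EE_mul_same (i j l : ℕ) : EE R i j * EE R j l = EE R i l := by simp [EE_mul]

lemma EE_mul_ne {j k : ℕ} (h : j ≠ k) (i l : ℕ) : EE R i j * EE R k l = 0 := by simp [EE_mul, h]

lemma el_mul {i j : ℕ} (h : i ≠ j) (a b : R) :
    (1 + a • EE R i j) * (1 + b • EE R i j) = 1 + (a + b) • EE R i j := by
  simp only [mul_add, add_mul, one_mul, mul_one, smul_mul_smul_comm, EE_mul_ne h.symm, smul_zero,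
    add_smul]
  abel

/-- The elementary automorphism as a unit. -/
noncomputable def elU (i j : ℕ) (a : R) : (Module.End R (ℕ →₀ R))ˣ :=
  if h : i ≠ j then
    ⟨1 + a • EE R i j, 1 + (-a) • EE R i j, by rw [el_mul h]; simp, by rw [el_mul h]; simp⟩
  else 1

lemma elU_val {i j : ℕ} (h : i ≠ j) (a : R) : (elU i j a : Module.End R (ℕ →₀ R))
    = 1 + a • EE R i j := by
  rw [elU, dif_pos h]

/-- The action of the Steinberg group on columns, with values in units. -/
noncomputable def piU : St R →* (Module.End R (ℕ →₀ R))ˣ :=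
  lift elU (fun i j h a b => Units.ext (by
      rw [Units.val_mul, elU_val h, elU_val h, elU_val h, el_mul h]))
    (fun i j k l hij hkl hjk hil a b => Units.ext (by
      simp only [Units.val_mul, elU_val hij, elU_val hkl, mul_add, add_mul, one_mul, mul_one,
        smul_mul_smul_comm, EE_mul_ne hjk, EE_mul_ne hil.symm, smul_zero]
      abel))
    (fun i j l hij hjl hil a b => by
      rw [mul_inv_eq_iff_eq_mul, mul_inv_eq_iff_eq_mul]
      refine Units.ext ?_
      simp only [Units.val_mul, elU_val hij, elU_val hjl, elU_val hil, mul_add, add_mul, one_mul,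
        mul_one, smul_mul_smul_comm, EE_mul_same, EE_mul_ne hil.symm, EE_mul_ne hjl.symm,
        smul_zero, zero_mul]
      abel)

/-- The action of the Steinberg group on columns. -/
noncomputable def pi : St R →* Module.End R (ℕ →₀ R) := (Units.coeHom _).comp piU

lemma pi_X {i j : ℕ} (h : i ≠ j) (a : R) : pi (X i j a) = 1 + a • EE R i j := by
  rw [← elU_val h]
  exact congrArg Units.val (lift_X _ _ _ _ h a)

lemma pi_X_apply {i j : ℕ} (h : i ≠ j) (a : R) (v : ℕ →₀ R) :
    pi (X i j a) v = v + Finsupp.single i (a * v j) := by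
  rw [pi_X h]
  simp [EE_apply]

/-- The standard pairing of columns. -/
noncomputable def pair (v w : ℕ →₀ R) : R := Finsupp.linearCombination R (fun i => w i) v

lemma pair_single_left (i : ℕ) (a : R) (w : ℕ →₀ R) : pair (Finsupp.single i a) w = a * w i := by
  simp [pair]

lemma pair_add_left (v v' w : ℕ →₀ R) : pair (v + v') w = pair v w + pair v' w := by
  simp [pair]

lemma pair_add_right (v w w' : ℕ →₀ R) : pair v (w + w') = pair v w + pair v w' := by
  induction v using Finsupp.induction_linear with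
  | zero => simp [pair]
  | add v v' h h' => rw [pair_add_left, pair_add_left, pair_add_left, h, h']; ring
  | single i a => simp [pair_single_left, mul_add]

lemma pair_single_right (v : ℕ →₀ R) (i : ℕ) (a : R) : pair v (Finsupp.single i a) = v i * a := by
  induction v using Finsupp.induction_linear with
  | zero => simp [pair]
  | add v v' h h' => rw [pair_add_left, h, h']; simp [add_mul]
  | single j b =>
    rw [pair_single_left]
    by_cases h : i = j
    · subst h; simp
    · simp [Finsupp.single_eq_of_ne h, Finsupp.single_eq_of_ne (Ne.symm h)]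

lemma pair_pi (u : St R) : ∀ v w : ℕ →₀ R, pair (pi (tau u) v) (pi u w) = pair v w := by
  induction u using St_induction with
  | one => simp
  | gen i j h a =>
    intro v w
    rw [tau_X, pi_X_apply h.symm, pi_X_apply h, pair_add_left, pair_add_right, pair_single_left,
      pair_single_right]
    simp only [Finsupp.coe_add, Pi.add_apply, Finsupp.single_eq_of_ne h.symm]
    ring
  | mul u u' h h' =>
    intro v w
    rw [map_mul, map_mul, map_mul, Module.End.mul_apply, Module.End.mul_apply, h, h']

lemma pi_tau_eq_one {w : St R} (hw : pi w = 1) : pi (tau w) = 1 := by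
  refine LinearMap.ext fun v => Finsupp.ext fun i => ?_
  have := pair_pi w v (Finsupp.single i 1)
  rw [hw, Module.End.one_apply, pair_single_right, pair_single_right, mul_one, mul_one] at this
  exact this

open scoped IsMulCommutative in
lemma exists_col (σ : ℕ ↪ ℕ) {m : ℕ} (hm : ∀ i, σ i ≠ m) :
    ∃ C : Multiplicative (ℕ →₀ R) →* St R,
      ∀ i a, C (Multiplicative.ofAdd (Finsupp.single i a)) = X (σ i) m a := by
  let s : Set (St R) := {y | ∃ i a, y = X (σ i) m a}
  have hs : IsMulCommutative (Subgroup.closure s) := by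
    refine Subgroup.isMulCommutative_closure ?_
    rintro _ ⟨i, a, rfl⟩ _ ⟨k, b, rfl⟩
    exact X_comm (hm k).symm (hm i) a b
  let F : ℕ → R →+ Additive (Subgroup.closure s) := fun i =>
    { toFun := fun a => Additive.ofMul ⟨X (σ i) m a, Subgroup.subset_closure ⟨i, a, rfl⟩⟩
      map_zero' := congrArg Additive.ofMul (Subtype.ext (X_zero _ _))
      map_add' := fun a b => congrArg Additive.ofMul (Subtype.ext (X_add _ _ a b).symm) }
  refine ⟨(Subgroup.closure s).subtype.comp (Finsupp.liftAddHom F).toMultiplicativeLeft,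
    fun i a => ?_⟩
  change (((Finsupp.liftAddHom F (Finsupp.single i a)).toMul : Subgroup.closure s) : St R) = _
  rw [Finsupp.liftAddHom_apply_single]
  rfl

lemma conj_col (σ : ℕ ↪ ℕ) {m : ℕ} (hm : ∀ i, σ i ≠ m) (C : Multiplicative (ℕ →₀ R) →* St R)
    (hC : ∀ i a, C (Multiplicative.ofAdd (Finsupp.single i a)) = X (σ i) m a) (u : St R) :
    ∀ v : ℕ →₀ R, reind σ u * C (Multiplicative.ofAdd v) * (reind σ u)⁻¹
      = C (Multiplicative.ofAdd (pi u v)) := by
  induction u using St_induction with
  | one => simp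
  | gen i j h a =>
    intro v
    induction v using Finsupp.induction_linear with
    | zero => simp
    | add v v' hv hv' =>
      rw [map_add (pi (X i j a)), ofAdd_add, ofAdd_add, map_mul, map_mul, ← hv, ← hv']
      group
    | single k b =>
      rw [pi_X_apply h, reind_X, add_comm, ofAdd_add, map_mul, hC, hC]
      by_cases hk : k = j
      · subst hk
        rw [Finsupp.single_eq_same, ← X_commutator (σ.injective.ne h) (hm k) (hm i) a b]
        group
      · rw [Finsupp.single_eq_of_ne (Ne.symm hk), mul_zero, X_zero, one_mul,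
          (X_comm (σ.injective.ne (Ne.symm hk)) (hm i) a b).eq, mul_inv_cancel_right]
  | mul u u' h h' =>
    intro v
    rw [map_mul, map_mul, Module.End.mul_apply, ← h, ← h']
    group

lemma commute_col (σ : ℕ ↪ ℕ) {m : ℕ} (hm : ∀ i, σ i ≠ m) {w : St R} (hw : pi w = 1) (i : ℕ)
    (a : R) : Commute (reind σ w) (X (σ i) m a) := by
  obtain ⟨C, hC⟩ := exists_col (R := R) σ hm
  have := conj_col σ hm C hC w (Finsupp.single i a)
  rw [hw, Module.End.one_apply, hC] at this
  exact mul_inv_eq_iff_eq_mul.mp this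

lemma commute_row (σ : ℕ ↪ ℕ) {m : ℕ} (hm : ∀ i, σ i ≠ m) {w : St R} (hw : pi w = 1) (i : ℕ)
    (a : R) : Commute (reind σ w) (X m (σ i) a) := by
  have := (commute_col σ hm (pi_tau_eq_one hw) i (-a)).map tau
  rwa [tau_reind, tau_tau, tau_X, neg_neg] at this

/-- The Weyl element. -/
def wEl (R : Type*) [CommRing R] (a b : ℕ) : St R := X a b 1 * X b a (-1) * X a b 1

lemma conj_of_commute {G : Type*} [Group G] {g y : G} (h : Commute g y) : MulAut.conj g y = y := by
  rw [MulAut.conj_apply, h.eq, mul_inv_cancel_right]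

lemma conj_X_left {i j l : ℕ} (hij : i ≠ j) (hjl : j ≠ l) (hil : i ≠ l) (a b : R) :
    MulAut.conj (X i j a) (X j l b) = X i l (a * b) * X j l b := by
  rw [MulAut.conj_apply, ← X_commutator hij hjl hil]
  group

lemma conj_X_right {i j l : ℕ} (hij : i ≠ j) (hjl : j ≠ l) (hil : i ≠ l) (a b : R) :
    MulAut.conj (X j l b) (X i j a) = X i j a * X i l (-(a * b)) := by
  rw [MulAut.conj_apply, ← neg_mul, ← X_commutator hij hjl hil, ← X_inv i j a]
  group

lemma wEl_conj_row {a b c : ℕ} (hab : a ≠ b) (hac : a ≠ c) (hbc : b ≠ c) (r : R) :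
    MulAut.conj (wEl R a b) (X a c r) = X b c (-r) := by
  rw [wEl, map_mul, map_mul, MulAut.mul_apply, MulAut.mul_apply,
    conj_of_commute (X_comm hab.symm hac _ _), conj_X_left hab.symm hac hbc, map_mul,
    conj_X_left hab hbc hac, conj_of_commute (X_comm hab.symm hac _ _), one_mul, neg_one_mul,
    (X_comm hbc.symm hac (-r) (-r)).eq, mul_assoc, X_add, neg_add_cancel, X_zero, mul_one]

lemma wEl_conj_col {a b c : ℕ} (hab : a ≠ b) (hac : a ≠ c) (hbc : b ≠ c) (r : R) :
    MulAut.conj (wEl R a b) (X c a r) = X c b (-r) := by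
  rw [wEl, map_mul, map_mul, MulAut.mul_apply, MulAut.mul_apply,
    conj_X_right hac.symm hab hbc.symm, map_mul,
    conj_of_commute (X_comm hac hab.symm _ _), conj_X_right hbc.symm hab.symm hac.symm,
    mul_one, neg_mul_neg, mul_one, ← mul_assoc, (X_comm hac hbc.symm r (-r)).eq, mul_assoc, X_add,
    add_neg_cancel, X_zero, mul_one, conj_of_commute (X_comm hbc hab _ _)]

lemma wEl_commute {a b c d : ℕ} (hac : a ≠ c) (had : a ≠ d) (hbc : b ≠ c) (hbd : b ≠ d) (r : R) :
    Commute (wEl R a b) (X c d r) :=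
  ((X_comm hbc had _ _).mul_left (X_comm hac hbd _ _)).mul_left (X_comm hbc had _ _)

/-- Even indices. -/
def ev : ℕ ↪ ℕ := ⟨fun i => 2 * i, fun _ _ h => by simpa using h⟩

/-- Odd indices. -/
def od : ℕ ↪ ℕ := ⟨fun i => 2 * i + 1, fun _ _ h => by simpa using h⟩

lemma ev_apply (i : ℕ) : ev i = 2 * i := rfl

lemma od_apply (i : ℕ) : od i = 2 * i + 1 := rfl

lemma ev_ne_od (i j : ℕ) : ev i ≠ od j := by
  rw [ev_apply, od_apply]; omega

/-- The product of the first `n` Weyl elements exchanging even and odd indices. -/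
def WW (R : Type*) [CommRing R] : ℕ → St R
  | 0 => 1
  | n + 1 => wEl R (2 * n) (2 * n + 1) * WW R n

lemma WW_conj (n : ℕ) {i j : ℕ} (hij : i ≠ j) (a : R) :
    MulAut.conj (WW R n) (X (2 * i) (2 * j) a)
      = X (if i < n then 2 * i + 1 else 2 * i) (if j < n then 2 * j + 1 else 2 * j)
        ((if i < n then -1 else 1) * (if j < n then -1 else 1) * a) := by
  induction n with
  | zero => simp [WW]
  | succ n ih =>
    rw [WW, map_mul, MulAut.mul_apply, ih]
    by_cases hi : i = n
    · subst hi
      have hj : (j < i + 1) = (j < i) := propext (by omega)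
      simp only [lt_irrefl, if_false, Nat.lt_succ_self, if_true, hj]
      rw [wEl_conj_row (by omega) (by split_ifs <;> omega) (by split_ifs <;> omega)]
      congr 1
      ring
    by_cases hj : j = n
    · subst hj
      have hi' : (i < j + 1) = (i < j) := propext (by omega)
      simp only [lt_irrefl, if_false, Nat.lt_succ_self, if_true, hi']
      rw [wEl_conj_col (by omega) (by split_ifs <;> omega) (by split_ifs <;> omega)]
      congr 1
      ring
    have hi' : (i < n + 1) = (i < n) := propext (by omega)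
    have hj' : (j < n + 1) = (j < n) := propext (by omega)
    simp only [hi', hj']
    exact conj_of_commute (wEl_commute (by split_ifs <;> omega) (by split_ifs <;> omega)
      (by split_ifs <;> omega) (by split_ifs <;> omega) _)

lemma WW_conj_ev (u : St R) :
    ∃ n, ∀ m, n ≤ m → MulAut.conj (WW R m) (reind ev u) = reind od u := by
  induction u using St_induction with
  | one => exact ⟨0, fun m _ => by simp⟩
  | gen i j h a =>
    refine ⟨max i j + 1, fun m hm => ?_⟩
    have hi : i < m := by omega
    have hj : j < m := by omega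
    rw [reind_X, reind_X, ev_apply, ev_apply, WW_conj m h]
    simp [hi, hj, od_apply]
  | mul u v hu hv =>
    obtain ⟨n, hn⟩ := hu
    obtain ⟨n', hn'⟩ := hv
    refine ⟨max n n', fun m hm => ?_⟩
    rw [map_mul, map_mul, map_mul, hn m (by omega), hn' m (by omega)]

/-- On the kernel of the action, the even and odd reindexings agree. -/
theorem reind_ev_eq_od {w : St R} (hw : pi w = 1) : reind ev w = reind od w := by
  obtain ⟨n, hn⟩ := WW_conj_ev w
  rw [← hn n le_rfl]
  refine (conj_of_commute ?_).symm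
  clear hn
  induction n with
  | zero => simp [WW]
  | succ n ih =>
    have h1 := fun a : R => commute_col ev (fun i => ev_ne_od i n) hw n a
    have h2 := fun a : R => commute_row ev (fun i => ev_ne_od i n) hw n a
    rw [WW]
    exact (((h1 1).mul_right (h2 (-1))).mul_right (h1 1)).symm.mul_left ih

lemma commute_ev_od (u v : St R) : Commute (reind ev u) (reind od v) := by
  induction u using St_induction with
  | one => simp
  | gen i j _ a =>
    induction v using St_induction with
    | one => simp
    | gen k l _ b =>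
      rw [reind_X, reind_X]
      exact X_comm (ev_ne_od _ _) (ev_ne_od _ _) a b
    | mul v v' hv hv' => rw [map_mul]; exact hv.mul_right hv'
  | mul u u' hu hu' => rw [map_mul]; exact hu.mul_left hu'

/-- The doubling `u ↦ E(u) O(u)⁻¹`. -/
def dbl (u : St R) : St R := reind ev u * (reind od u)⁻¹

lemma dbl_pow {u : St R} {n : ℕ} (hu : pi (u ^ n) = 1) : dbl u ^ n = 1 := by
  rw [dbl, (commute_ev_od u u).inv_right.mul_pow, inv_pow, ← map_pow, ← map_pow,
    reind_ev_eq_od hu, mul_inv_cancel]

lemma dbl_conj {u u' c : St R} (h : pi (c * u * c⁻¹ * u'⁻¹) = 1) :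
    ∃ c' : St R, c' * dbl u * c'⁻¹ = dbl u' := by
  refine ⟨reind ev c * reind od c, ?_⟩
  set w := c * u * c⁻¹ * u'⁻¹ with hw
  have e : c * u * c⁻¹ = w * u' := by rw [hw]; group
  have h1 : reind ev c * reind od c * dbl u * (reind ev c * reind od c)⁻¹
      = reind ev (c * u * c⁻¹) * (reind od (c * u * c⁻¹))⁻¹ := by
    have a1 := (commute_ev_od u c).eq
    have a2 := (commute_ev_od c⁻¹ (c * u⁻¹ * c⁻¹)).eq
    simp only [map_mul, map_inv] at a2
    simp only [dbl, map_mul, map_inv, mul_inv_rev, inv_inv]
    calc reind ev c * reind od c * (reind ev u * (reind od u)⁻¹) * ((reind od c)⁻¹ * (reind ev c)⁻¹)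
        = reind ev c * (reind od c * reind ev u) * (reind od u)⁻¹ * (reind od c)⁻¹
          * (reind ev c)⁻¹ := by group
      _ = reind ev c * reind ev u * (reind od c * (reind od u)⁻¹ * (reind od c)⁻¹
          * (reind ev c)⁻¹) := by rw [← a1]; group
      _ = _ := by rw [← a2]; group
  rw [h1, e, map_mul _ w u', map_mul _ w u', reind_ev_eq_od h, ← (commute_ev_od u' w).eq, dbl]
  have a3 := (commute_ev_od w u').eq
  rw [reind_ev_eq_od h] at a3
  rw [a3]
  group

end Crest.Agent.R171
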